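import Crest.Agent.N255.Nv.Abs

/-!
# Row 255 (helper2): cochains on tuples, pull back by labels, contiguous labels
-/

set_option autoImplicit false
open Set Finsupp

noncomputable section

namespace Crest.Agent.N255.Nv

open Crest.Agent.N255.Tp

variable {k : Type} [CommRing k] {I J : Type} {A A' A'' : Type} [AddCommGroup A] [Module k A]
  [AddCommGroup A'] [Module k A'] [AddCommGroup A''] [Module k A''] {n m : ℕ}

variable (k) in
/-- coboundary of cochains on tuples -/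
def td : (Tu I n → A) →ₗ[k] (Tu I (n + 1) → A) where
  toFun ψ τ := ∑ i : Fin (n + 2), (-1 : k) ^ (i : ℕ) • ψ (tf τ i)
  map_add' φ ψ := by funext σ; simp [Finset.sum_add_distrib]
  map_smul' r φ := by funext σ; simp [Finset.smul_sum, smul_smul, mul_comm]

theorem td_apply (ψ : Tu I n → A) (τ : Tu I (n + 1)) :
    td k ψ τ = ∑ i : Fin (n + 2), (-1 : k) ^ (i : ℕ) • ψ (tf τ i) := rfl

theorem tu_ext {V : Type} [AddCommGroup V] [Module k V] {S T : (Tu I n →₀ k) →ₗ[k] V}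
    (h : ∀ τ, S (single τ 1) = T (single τ 1)) (c : Tu I n →₀ k) : S c = T c :=
  LinearMap.congr_fun (lhom_ext' fun τ => LinearMap.ext_ring (h τ)) c

theorem lc_tb (ψ : Tu I n → A) (c : Tu I (n + 1) →₀ k) :
    linearCombination k ψ (tb k n c) = linearCombination k (td k ψ) c :=
  tu_ext (S := linearCombination k ψ ∘ₗ tb k n) (fun τ => by simp [tb_single, td_apply]) c

theorem td_eq (ψ : Tu I n → A) (τ : Tu I (n + 1)) :
    td k ψ τ = linearCombination k ψ (tb k n (single τ 1)) := by rw [lc_tb]; simp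

theorem td_td (ψ : Tu I n → A) : td k (td k ψ) = 0 := by
  funext τ
  rw [td_eq, ← lc_tb, tb_tb, map_zero]; rfl

theorem td0 (ψ : Tu I 0 → A) (τ : Tu I 1) : td k ψ τ = ψ ![τ 1] - ψ ![τ 0] := by
  have h0 : tf τ 0 = ![τ 1] := by funext j; fin_cases j; rfl
  have h1 : tf τ 1 = ![τ 0] := by funext j; fin_cases j; rfl
  simp [td_apply, h0, h1, sub_eq_add_neg]

theorem td1 (ψ : Tu I 1 → A) (τ : Tu I 2) :
    td k ψ τ = ψ ![τ 1, τ 2] - ψ ![τ 0, τ 2] + ψ ![τ 0, τ 1] := by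
  have h0 : tf τ 0 = ![τ 1, τ 2] := by funext j; fin_cases j <;> rfl
  have h1 : tf τ 1 = ![τ 0, τ 2] := by funext j; fin_cases j <;> rfl
  have h2 : tf τ 2 = ![τ 0, τ 1] := by funext j; fin_cases j <;> rfl
  simp [td_apply, Fin.sum_univ_three, h0, h1, h2, sub_eq_add_neg]

theorem td2 (ψ : Tu I 2 → A) (τ : Tu I 3) :
    td k ψ τ = ψ ![τ 1, τ 2, τ 3] - ψ ![τ 0, τ 2, τ 3] + ψ ![τ 0, τ 1, τ 3] - ψ ![τ 0, τ 1, τ 2] := by
  have h0 : tf τ 0 = ![τ 1, τ 2, τ 3] := by funext j; fin_cases j <;> rfl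
  have h1 : tf τ 1 = ![τ 0, τ 2, τ 3] := by funext j; fin_cases j <;> rfl
  have h2 : tf τ 2 = ![τ 0, τ 1, τ 3] := by funext j; fin_cases j <;> rfl
  have h3 : tf τ 3 = ![τ 0, τ 1, τ 2] := by funext j; fin_cases j <;> rfl
  have e3 : (-1 : k) ^ 3 = -1 := by ring
  simp [td_apply, Fin.sum_univ_four, h0, h1, h2, h3, sub_eq_add_neg, e3]

theorem lc_zero {s : Set (Tu I n)} {ψ : Tu I n → A} (h : ∀ τ ∈ s, ψ τ = 0) {c : Tu I n →₀ k}
    (hc : c ∈ supported k k s) : linearCombination k ψ c = 0 :=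
  mem_of (F := linearCombination k ψ) (N := ⊥) (fun τ hτ => by simp [h τ hτ]) hc

variable (k) in
/-- change of labels -/
def tm (f : I → J) (n : ℕ) : (Tu I n →₀ k) →ₗ[k] (Tu J n →₀ k) := lmapDomain k k fun τ => f ∘ τ

theorem tm_single (f : I → J) (τ : Tu I n) : tm k f n (single τ 1) = single (f ∘ τ) 1 := by simp [tm]

theorem tb_tm (f : I → J) (c : Tu I (n + 1) →₀ k) :
    tb k n (tm k f (n + 1) c) = tm k f n (tb k n c) :=
  tu_ext (S := tb k n ∘ₗ tm k f (n + 1)) (T := tm k f n ∘ₗ tb k n) (fun τ => by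
    simp only [LinearMap.comp_apply, tm_single, tb_single, map_sum, map_smul]; rfl) c

theorem ta_tm (f : I → J) (c : Tu I 0 →₀ k) : ta k (tm k f 0 c) = ta k c :=
  tu_ext (S := ta k ∘ₗ tm k f 0) (fun τ => by
    simp only [LinearMap.comp_apply, tm_single, ta_single]) c

theorem lc_tm (f : I → J) (ψ : Tu J n → A) (c : Tu I n →₀ k) :
    linearCombination k ψ (tm k f n c) = linearCombination k (fun τ => ψ (f ∘ τ)) c :=
  tu_ext (S := linearCombination k ψ ∘ₗ tm k f n) (fun τ => by simp [tm_single]) c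

variable (k) in
/-- the prism between two maps of labels -/
def pz (f g : J → I) : ∀ n, (Tu J n →₀ k) →ₗ[k] (Tu I (n + 1) →₀ k)
  | 0 => linearCombination k fun τ => cn k (f (τ 0)) 0 (single (g ∘ τ) 1 - single (f ∘ τ) 1)
  | n + 1 => linearCombination k fun τ => cn k (f (τ 0)) (n + 1)
      (single (g ∘ τ) 1 - single (f ∘ τ) 1 - pz f g n (tb k n (single τ 1)))

variable (f g : J → I)

theorem tb_pz0 (c : Tu J 0 →₀ k) : tb k 0 (pz k f g 0 c) = tm k g 0 c - tm k f 0 c :=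
  tu_ext (S := tb k 0 ∘ₗ pz k f g 0) (T := tm k g 0 - tm k f 0) (fun τ => by
    simp only [LinearMap.comp_apply, LinearMap.sub_apply, tm_single, pz, linearCombination_single,
      one_smul]
    exact tb_cn _ (show ta k _ = 0 by rw [map_sub, ta_single, ta_single, sub_self])) c

theorem tb_pz : ∀ (n : ℕ) (c : Tu J (n + 1) →₀ k), tb k (n + 1) (pz k f g (n + 1) c) =
    tm k g (n + 1) c - tm k f (n + 1) c - pz k f g n (tb k n c) := by
  have step : ∀ n, (∀ c : Tu J (n + 1) →₀ k, tb k n (pz k f g n (tb k n c)) =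
      tm k g n (tb k n c) - tm k f n (tb k n c)) → ∀ c : Tu J (n + 1) →₀ k,
      tb k (n + 1) (pz k f g (n + 1) c) =
        tm k g (n + 1) c - tm k f (n + 1) c - pz k f g n (tb k n c) := fun n h c =>
    tu_ext (S := tb k (n + 1) ∘ₗ pz k f g (n + 1))
      (T := tm k g (n + 1) - tm k f (n + 1) - pz k f g n ∘ₗ tb k n) (fun τ => by
      simp only [LinearMap.comp_apply, LinearMap.sub_apply, tm_single]
      rw [pz, linearCombination_single, one_smul]
      refine tb_cn _ (show tb k n _ = 0 from ?_)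
      rw [map_sub, map_sub, h, ← tm_single, ← tm_single, tb_tm, tb_tm, sub_self]) c
  intro n
  induction n with
  | zero => exact step 0 fun c => tb_pz0 f g _
  | succ n ih => exact step (n + 1) fun c => by rw [ih, tb_tb, map_zero, sub_zero]

theorem cn_mem {s : Set I} {a : I} (ha : a ∈ s) {c : Tu I n →₀ k}
    (hc : c ∈ supported k k {τ : Tu I n | range τ ⊆ s}) :
    cn k a n c ∈ supported k k {τ : Tu I (n + 1) | range τ ⊆ s} :=
  mem_of (fun τ hτ => by
    rw [cn_single]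
    refine single_mem_supported k 1 ?_
    change range (Fin.cons a τ : Tu I (n + 1)) ⊆ s
    rw [Fin.range_cons]
    exact insert_subset ha hτ) hc

theorem pz_mem {s : Set I} : ∀ (n : ℕ) {c : Tu J n →₀ k},
    c ∈ supported k k {τ : Tu J n | f '' range τ ∪ g '' range τ ⊆ s} →
    pz k f g n c ∈ supported k k {τ : Tu I (n + 1) | range τ ⊆ s} := by
  have e : ∀ {n} {τ : Tu J n}, f '' range τ ∪ g '' range τ ⊆ s →
      (single (g ∘ τ) 1 - single (f ∘ τ) 1 : Tu I n →₀ k) ∈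
        supported k k {τ : Tu I n | range τ ⊆ s} := fun h =>
    Submodule.sub_mem _
      (single_mem_supported k 1 (by rw [mem_ofPred_eq, range_comp]; exact subset_union_right.trans h))
      (single_mem_supported k 1 (by rw [mem_ofPred_eq, range_comp]; exact subset_union_left.trans h))
  intro n
  induction n with
  | zero =>
    exact fun hc => mem_of (fun τ hτ => by
      rw [pz, linearCombination_single, one_smul]
      exact cn_mem (hτ (Or.inl ⟨_, ⟨0, rfl⟩, rfl⟩)) (e hτ)) hc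
  | succ n ih =>
    exact fun hc => mem_of (fun τ hτ => by
      rw [pz, linearCombination_single, one_smul]
      exact cn_mem (hτ (Or.inl ⟨_, ⟨0, rfl⟩, rfl⟩)) (Submodule.sub_mem _ (e hτ)
        (ih (tb_mem (P := fun t => f '' t ∪ g '' t ⊆ s) (fun _ _ h h' =>
          (union_subset_union (image_mono h) (image_mono h)).trans h')
          (single_mem_supported k 1 hτ))))) hc

variable (k) in
/-- the prism on cochains -/
def pc (ψ : Tu I (n + 1) → A) : Tu J n → A :=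
  fun τ => linearCombination k ψ (pz k f g n (single τ 1))

theorem lc_pc (ψ : Tu I (n + 1) → A) (c : Tu J n →₀ k) :
    linearCombination k (pc k f g ψ) c = linearCombination k ψ (pz k f g n c) :=
  tu_ext (T := linearCombination k ψ ∘ₗ pz k f g n) (fun τ => by simp [pc]) c

/-- the prism identity -/
theorem pc_eq (ψ : Tu I (n + 1) → A) (τ : Tu J (n + 1)) :
    ψ (g ∘ τ) - ψ (f ∘ τ) = td k (pc k f g ψ) τ + pc k f g (td k ψ) τ := by
  rw [td_eq, lc_pc, pc, ← lc_tb, tb_pz]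
  simp [tm_single]

theorem pc_eq0 (ψ : Tu I 0 → A) (τ : Tu J 0) : ψ (g ∘ τ) - ψ (f ∘ τ) = pc k f g (td k ψ) τ := by
  rw [pc, ← lc_tb, tb_pz0]
  simp [tm_single]

theorem pc_zero {ψ : Tu I (n + 1) → A} {τ : Tu J n}
    (h : ∀ ω, range ω ⊆ f '' range τ ∪ g '' range τ → ψ ω = 0) : pc k f g ψ τ = 0 :=
  lc_zero (s := {ω | range ω ⊆ f '' range τ ∪ g '' range τ}) h
    (pz_mem f g n (single_mem_supported k 1 Subset.rfl))

/-- **contiguous maps of labels**, cochains on tuples -/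
theorem ctg_tu {ψ : Tu I (n + 1) → A} {τ : Tu J (n + 1)}
    (h : ∀ ω, range ω ⊆ f '' range τ ∪ g '' range τ → td k ψ ω = 0) :
    ψ (g ∘ τ) - ψ (f ∘ τ) = td k (pc k f g ψ) τ := by rw [pc_eq (k := k), pc_zero f g h, add_zero]

theorem ctg_tu0 {ψ : Tu I 0 → A} {τ : Tu J 0}
    (h : ∀ ω, range ω ⊆ f '' range τ ∪ g '' range τ → td k ψ ω = 0) : ψ (g ∘ τ) = ψ (f ∘ τ) := by
  rw [← sub_eq_zero, pc_eq0 (k := k), pc_zero f g h]

section sing
variable {X Y : Type} [TopologicalSpace X] [TopologicalSpace Y]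

/-- pull back by labels -/
def rs (l : X → I) (ψ : Tu I n → A) : Co A n X := fun σ => ψ (vl l σ)

omit [AddCommGroup A] in
theorem rs_apply (l : X → I) (ψ : Tu I n → A) (σ : Sx n X) : rs l ψ σ = ψ (vl l σ) := rfl

theorem rs_add (l : X → I) (φ ψ : Tu I n → A) : rs l (φ + ψ) = rs l φ + rs l ψ := rfl

theorem rs_sub (l : X → I) (φ ψ : Tu I n → A) : rs l (φ - ψ) = rs l φ - rs l ψ := rfl

theorem rs_neg (l : X → I) (φ : Tu I n → A) : rs l (-φ) = -rs l φ := rfl

theorem rs_zero (l : X → I) : rs l (0 : Tu I n → A) = 0 := rfl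

theorem rs_smul (l : X → I) (r : k) (ψ : Tu I n → A) : rs l (r • ψ) = r • rs l ψ := rfl

theorem rs_sum {ι : Type} (l : X → I) (s : Finset ι) (ψ : ι → Tu I n → A) :
    rs l (∑ i ∈ s, ψ i) = ∑ i ∈ s, rs l (ψ i) := by
  funext σ; simp [rs]

theorem vl_sub (l : X → I) (σ : Sx n X) (v : Fin (m + 1) → Fin (n + 1)) :
    vl l (sub σ v) = vl l σ ∘ v := by
  funext j
  change l (σ (stdSimplex.map v (stdSimplex.vertex j))) = _
  rw [stdSimplex.map_vertex]; rfl

theorem vl_comp (f : I → J) (l : X → I) (σ : Sx n X) : vl (f ∘ l) σ = f ∘ vl l σ := rfl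

theorem vl_push (l : Y → I) (φ : C(X, Y)) (σ : Sx n X) : vl l (φ.comp σ) = vl (l ∘ φ) σ := rfl

theorem range_vl (l : X → I) (σ : Sx n X) : range (vl l σ) ⊆ l '' range σ := by
  rintro _ ⟨i, rfl⟩; exact ⟨_, ⟨_, rfl⟩, rfl⟩

theorem pull_rs (l : Y → I) (φ : C(X, Y)) (ψ : Tu I n → A) :
    pull k φ (rs l ψ) = rs (l ∘ φ) ψ := rfl

theorem cob_rs (l : X → I) (ψ : Tu I n → A) : cob k (rs l ψ) = rs l (td k ψ) := by
  funext σ
  simp only [cob_apply, rs, td_apply, vl_fc]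

theorem ev_rs (l : X → I) (ψ : Tu I n → A) (c : Ch k n X) :
    ev k (rs l ψ) c = linearCombination k ψ (lb k l n c) :=
  ch_ext' (T := linearCombination k ψ ∘ₗ lb k l n) (fun σ => by simp [lb_sg, rs]) c

theorem tm_lb (f : I → J) (l : X → I) (c : Ch k n X) : tm k f n (lb k l n c) = lb k (f ∘ l) n c :=
  ch_ext' (S := tm k f n ∘ₗ lb k l n) (fun σ => by
    simp only [LinearMap.comp_apply, lb_sg, tm_single, vl_comp]) c

theorem rs_van {P : Sb X} {l : X → I} {s : Set (Tu I n)} (hl : ∀ σ ∈ P.S n, vl l σ ∈ s)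
    {ψ : Tu I n → A} (h : ∀ τ ∈ s, ψ τ = 0) : rs l ψ ∈ P.van k A n := fun σ hσ => h _ (hl σ hσ)

theorem rs_Z {P : Sb X} {l : X → I} {s : Set (Tu I (n + 1))} (hl : ∀ σ ∈ P.S (n + 1), vl l σ ∈ s)
    {ψ : Tu I n → A} (h : ∀ τ ∈ s, td k ψ τ = 0) : rs l ψ ∈ P.Z k A n := by
  rw [Sb.mem_Z, cob_rs]; exact rs_van hl h

variable (k) in
/-- the prism between two labellings -/
def ct (l l' : X → I) (ψ : Tu I (n + 1) → A) : Co A n X := rs id (pc k l l' ψ)

theorem im_vl (l : X → I) (σ : Sx n X) : l '' range (vl id σ) = range (vl l σ) := by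
  rw [← range_comp]; rfl

/-- **contiguous labellings** -/
theorem ctg (l l' : X → I) {ψ : Tu I (n + 1) → A} {σ : Sx (n + 1) X}
    (h : ∀ ω, range ω ⊆ range (vl l σ) ∪ range (vl l' σ) → td k ψ ω = 0) :
    rs l' ψ σ - rs l ψ σ = cob k (ct k l l' ψ) σ := by
  rw [ct, cob_rs]
  exact ctg_tu l l' (τ := vl id σ) (by rwa [im_vl, im_vl])

theorem ctg0 (l l' : X → I) {ψ : Tu I 0 → A} {σ : Sx 0 X}
    (h : ∀ ω, range ω ⊆ range (vl l σ) ∪ range (vl l' σ) → td k ψ ω = 0) :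
    rs l' ψ σ = rs l ψ σ := ctg_tu0 (k := k) l l' (τ := vl id σ) (by rwa [im_vl, im_vl])

theorem ct_zero (l l' : X → I) {ψ : Tu I (n + 1) → A} {σ : Sx n X}
    (h : ∀ ω, range ω ⊆ range (vl l σ) ∪ range (vl l' σ) → ψ ω = 0) : ct k l l' ψ σ = 0 :=
  pc_zero l l' (τ := vl id σ) (by rwa [im_vl, im_vl])

/-- clique tuples in `M` -/
def CT (R : I → I → Prop) (M : Set I) (n : ℕ) : Set (Tu I n) := {τ | range τ ⊆ M ∧ Cq R (range τ)}

theorem CT.mono {R : I → I → Prop} {M M' : Set I} (h : M ⊆ M') : CT R M n ⊆ CT R M' n :=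
  fun _ hτ => ⟨hτ.1.trans h, hτ.2⟩

theorem CT.of_sub {R : I → I → Prop} {M s : Set I} (h : s ⊆ M) (q : Cq R s) {ω : Tu I n}
    (hω : range ω ⊆ s) : ω ∈ CT R M n := ⟨hω.trans h, q.mono hω⟩

theorem CT.comp {R : I → I → Prop} {M : Set I} {τ : Tu I n} (h : τ ∈ CT R M n)
    (v : Fin (m + 1) → Fin (n + 1)) : τ ∘ v ∈ CT R M m :=
  CT.of_sub h.1 h.2 (range_comp_subset_range _ _)

theorem CT.tf {R : I → I → Prop} {M : Set I} {τ : Tu I (n + 1)} (h : τ ∈ CT R M (n + 1))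
    (i : Fin (n + 2)) : tf τ i ∈ CT R M n := CT.of_sub h.1 h.2 (range_tf τ i)

/-- contiguous labellings pull closed cochains back to cohomologous cochains -/
theorem ctg_Ex {R : I → I → Prop} {M : Set I} {P : Sb X} (l l' : X → I)
    (hl : ∀ σ ∈ P.S n, range (vl l σ) ∪ range (vl l' σ) ⊆ M ∧ Cq R (range (vl l σ) ∪ range (vl l' σ)))
    {ψ : Tu I n → A} (h : ∀ ω ∈ CT R M (n + 1), td k ψ ω = 0) :
    rs l' ψ - rs l ψ ∈ P.Ex k A n := by
  cases n with
  | zero =>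
    exact fun σ hσ => sub_eq_zero.2
      (ctg0 (k := k) l l' fun ω hω => h ω (CT.of_sub (hl σ hσ).1 (hl σ hσ).2 hω))
  | succ n =>
    exact Sb.mem_Ex.2 ⟨ct k l l' ψ, fun σ hσ => sub_eq_zero.2
      (ctg l l' fun ω hω => h ω (CT.of_sub (hl σ hσ).1 (hl σ hσ).2 hω))⟩

/-- the cup product on tuples -/
def tcup (μ : A →ₗ[k] A' →ₗ[k] A'') (n : ℕ) {i j : ℕ} (φ : Tu I i → A) (ψ : Tu I j → A') :
    Tu I n → A'' :=
  fun τ => μ (φ fun t => τ ⟨min t n, by omega⟩) (ψ fun t => τ ⟨min (t + (n - j)) n, by omega⟩)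

theorem cup_rs (μ : A →ₗ[k] A' →ₗ[k] A'') (l : X → I) {i j : ℕ} (φ : Tu I i → A) (ψ : Tu I j → A') :
    cup μ n (rs l φ) (rs l ψ) = rs l (tcup μ n φ ψ) := by
  funext σ
  simp only [cup, rs, fr, bk, vl_sub, tcup]; rfl

theorem tcup11 (μ : A →ₗ[k] A' →ₗ[k] A'') (φ : Tu I 1 → A) (ψ : Tu I 1 → A') (τ : Tu I 2) :
    tcup μ 2 φ ψ τ = μ (φ ![τ 0, τ 1]) (ψ ![τ 1, τ 2]) := by
  rw [tcup]
  congr 2
  · congr 1; funext t; fin_cases t <;> rfl
  · funext t; fin_cases t <;> rfl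

end sing

end Crest.Agent.N255.Nv

end
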