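import Crest.Agent.N255.Nv.Abs

/-!
# Row 255 (helper41): non-evasive sets of labels, acyclicity and pro-acyclicity of unions
-/

set_option autoImplicit false
open Set Finsupp

noncomputable section

namespace Crest.Agent.N255.Nv

variable {k : Type} [CommRing k] {I J : Type}

/-- the link of `v` in `t` -/
def Lk (R : I → I → Prop) (t : Set I) (v : I) : Set I := {w | w ∈ t \ {v} ∧ R v w}

/-- non-evasive sets (decision tree of depth at most `m`) -/
def Nev (R : I → I → Prop) : ℕ → Set I → Prop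
  | 0, t => ∃ a, t = {a}
  | m + 1, t => (∃ a, t = {a}) ∨ ∃ v ∈ t, Nev R m (t \ {v}) ∧ Nev R m (Lk R t v)

variable {R : I → I → Prop}

theorem Nev.one (m : ℕ) (a : I) : Nev R m {a} := by
  cases m with
  | zero => exact ⟨a, rfl⟩
  | succ m => exact Or.inl ⟨a, rfl⟩

theorem Nev.nonempty {m : ℕ} {t : Set I} (h : Nev R m t) : t.Nonempty := by
  cases m with
  | zero => obtain ⟨a, rfl⟩ := h; exact singleton_nonempty a
  | succ m =>
    rcases h with ⟨a, rfl⟩ | ⟨v, hv, -⟩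
    exacts [singleton_nonempty a, ⟨v, hv⟩]

theorem Nev.succ {m : ℕ} : ∀ {t : Set I}, Nev R m t → Nev R (m + 1) t := by
  induction m with
  | zero => exact fun h => Or.inl h
  | succ m ih => exact fun h => h.imp id fun ⟨v, hv, a, b⟩ => ⟨v, hv, ih a, ih b⟩

theorem Nev.mono {m m' : ℕ} {t : Set I} (h : Nev R m t) (l : m ≤ m') : Nev R m' t := by
  induction l with
  | refl => exact h
  | step _ ih => exact ih.succ

theorem Nev.finite {m : ℕ} : ∀ {t : Set I}, Nev R m t → t.Finite := by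
  induction m with
  | zero => rintro _ ⟨a, rfl⟩; exact finite_singleton a
  | succ m ih =>
    rintro t (⟨a, rfl⟩ | ⟨v, -, a, -⟩)
    · exact finite_singleton a
    · exact ((ih a).insert v).subset fun w hw => by
        by_cases e : w = v
        exacts [Or.inl e, Or.inr ⟨hw, e⟩]

theorem Nev.image {R' : J → J → Prop} {f : I → J} (hf : Function.Injective f)
    (hR : ∀ a b, R' (f a) (f b) ↔ R a b) {m : ℕ} : ∀ {t : Set I}, Nev R m t → Nev R' m (f '' t) := by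
  induction m with
  | zero => rintro _ ⟨a, rfl⟩; exact ⟨f a, image_singleton⟩
  | succ m ih =>
    rintro t (⟨a, rfl⟩ | ⟨v, hv, a, b⟩)
    · exact Or.inl ⟨f a, image_singleton⟩
    · refine Or.inr ⟨f v, mem_image_of_mem f hv, ?_, ?_⟩
      · have := ih a
        rwa [image_sdiff hf, image_singleton] at this
      · convert ih b using 1
        ext y
        constructor
        · rintro ⟨⟨⟨w, hw, rfl⟩, e⟩, r⟩
          exact ⟨w, ⟨⟨hw, fun c => e (congrArg f c)⟩, (hR _ _).1 r⟩, rfl⟩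
        · rintro ⟨w, ⟨⟨hw, e⟩, r⟩, rfl⟩
          exact ⟨⟨mem_image_of_mem f hw, fun c => e (hf c)⟩, (hR _ _).2 r⟩

/-- ordered cliques in `t` -/
def Fl (R : I → I → Prop) (t : Set I) (n : ℕ) : Set (Tu I n) := {ω | range ω ⊆ t ∧ Cq R (range ω)}

theorem Fl.mono {t t' : Set I} (h : t ⊆ t') (n : ℕ) : Fl R t n ⊆ Fl R t' n :=
  fun _ hω => ⟨hω.1.trans h, hω.2⟩

theorem cl_fl (t : Set I) : Cl (tb k) (Fl R t) := fun _ _ hc =>
  tb_mem (P := fun s => s ⊆ t ∧ Cq R s) (fun _ _ h h' => ⟨h.trans h'.1, h'.2.mono h⟩) hc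

theorem fl_pt (hr : ∀ a, R a a) {t : Set I} {a : I} (ha : a ∈ t) : (fun _ => a) ∈ Fl R t 0 :=
  ⟨by rintro _ ⟨_, rfl⟩; exact ha, by rintro _ ⟨_, rfl⟩ _ ⟨_, rfl⟩; exact hr a⟩

/-- cones are acyclic -/
theorem fl_cone (hs : ∀ a b, R a b → R b a) {t : Set I} {a : I} (ha : a ∈ t) (h : ∀ b ∈ t, R a b) :
    Ac (tb k) (ta k) (Fl R t) (Fl R t) := fun n c hc h0 =>
  ⟨cn k a n c, mem_of (fun ω hω => by
    rw [cn_single]
    refine single_mem_supported k 1 ?_
    have e : range (Fin.cons a ω : Tu I (n + 1)) = insert a (range ω) := Fin.range_cons a ω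
    change range _ ⊆ t ∧ Cq R (range _)
    rw [e]
    refine ⟨insert_subset ha hω.1, ?_⟩
    rintro x (rfl | hx) y (rfl | hy)
    exacts [h _ ha, h _ (hω.1 hy), hs _ _ (h _ (hω.1 hx)), hω.2 _ hx _ hy]) hc, tb_cn a h0⟩

/-- **the clique complex of a non-evasive set is acyclic** -/
theorem Nev.ac (hr : ∀ a, R a a) (hs : ∀ a b, R a b → R b a) {m : ℕ} :
    ∀ {t : Set I}, Nev R m t → Ac (tb k) (ta k) (Fl R t) (Fl R t) := by
  have one : ∀ a : I, Ac (tb k) (ta k) (Fl R {a}) (Fl R {a}) := fun a =>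
    fl_cone hs (mem_singleton a) (by rintro _ rfl; exact hr _)
  induction m with
  | zero => rintro _ ⟨a, rfl⟩; exact one a
  | succ m ih =>
    rintro t (⟨a, rfl⟩ | ⟨v, hv, a, b⟩)
    · exact one a
    have l1 : insert v (Lk R t v) ⊆ t := insert_subset hv fun _ h => h.1.1
    have c1 : Ac (tb k) (ta k) (Fl R (insert v (Lk R t v))) (Fl R (insert v (Lk R t v))) :=
      fl_cone hs (mem_insert _ _) (by rintro _ (rfl | h); exacts [hr _, h.2])
    obtain ⟨p, hp⟩ := b.nonempty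
    refine (Ac.union (cl_fl _) (cl_fl _) tb_rc (fun _ => Subset.rfl) (fun _ => Subset.rfl)
      ((ih b).mono (fun n ω hω => ⟨fun x hx => ?_, hω.1.2⟩) fun n ω hω =>
        ⟨Fl.mono (subset_insert _ _) n hω, Fl.mono (fun _ h => h.1) n hω⟩)
      (c1.mono (fun _ => Subset.rfl) (Fl.mono l1)) ((ih a).mono (fun _ => Subset.rfl)
        (Fl.mono sdiff_subset)) ⟨_, ⟨fl_pt hr (mem_insert_of_mem _ hp), fl_pt hr hp.1⟩,
        ta_single _⟩).mono (fun n ω hω => ?_) fun _ => Subset.rfl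
    · exact (hω.1.1 hx).resolve_left (hω.2.1 hx).2
    · by_cases e : v ∈ range ω
      · refine Or.inl ⟨fun x hx => ?_, hω.2⟩
        by_cases e' : x = v
        exacts [Or.inl e', Or.inr ⟨⟨hω.1 hx, e'⟩, hω.2 _ e _ hx⟩]
      · exact Or.inr ⟨fun x hx => ⟨hω.1 hx, fun c => e (c ▸ hx)⟩, hω.2⟩

section pro
variable {B : ℕ → Type} {d : ∀ n, (B (n + 1) →₀ k) →ₗ[k] (B n →₀ k)} {ε : (B 0 →₀ k) →ₗ[k] k}

/-- **unions over non-evasive sets of a pro-acyclic system are pro-acyclic** -/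
theorem ac_ne (hr : ∀ a, R a a) (hs : ∀ a b, R a b → R b a) {S : ℕ → I → ∀ n, Set (B n)}
    (hdd : ∀ n c, d n c ∈ rc d ε n)
    (hc : ∀ r a, Cl d (S r a)) (hm : ∀ r r', r ≤ r' → ∀ a n, S r' a n ⊆ S r a n)
    (hp : ∀ r (s : Finset I), s.Nonempty → Cq R s → ∃ p ∈ It (S r) s 0, ε (single p 1) = 1)
    (ha : ∀ r, ∃ r', ∀ s : Finset I, s.Nonempty → Cq R s → Ac d ε (It (S r') s) (It (S r) s))
    (hx : ∀ r a b n, ∀ x ∈ S r a n, x ∈ S r b n → R a b)
    (m : ℕ) : ∀ r, ∃ r', r ≤ r' ∧ ∀ (s : Finset I) (t : Set I), Nev R m t → Cq R s →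
      (∀ a ∈ s, ∀ b ∈ t, R a b) → Ac d ε (Un (S r') s t) (Un (S r) s t) := by
  classical
  have mU : ∀ r r', r ≤ r' → ∀ s t n, Un (S r') s t n ⊆ Un (S r) s t n := fun r r' h s t n b hb =>
    ⟨fun a ha => hm r r' h a n (hb.1 a ha), hb.2.imp fun a ha => ⟨ha.1, hm r r' h a n ha.2⟩⟩
  have mI : ∀ r r', r ≤ r' → ∀ s n, It (S r') s n ⊆ It (S r) s n := fun r r' h s n b hb a ha =>
    hm r r' h a n (hb a ha)
  have cq : ∀ (s : Finset I) (v : I), Cq R s → (∀ a ∈ s, R a v) → Cq R (insert v s : Finset I) := by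
    intro s v h h'
    rw [Finset.coe_insert]
    rintro x (rfl | hx) y (rfl | hy)
    exacts [hr _, hs _ _ (h' _ hy), h' _ hx, h _ hx _ hy]
  have one : ∀ r r1, (∀ s : Finset I, s.Nonempty → Cq R s → Ac d ε (It (S r1) s) (It (S r) s)) →
      ∀ (s : Finset I) (t : Set I) (v : I), v ∈ t → Cq R s → (∀ a ∈ s, ∀ b ∈ t, R a b) →
      Ac d ε (It (S r1) (insert v s : Finset I)) (Un (S r) s t) := fun r r1 h1 s t v hv q h =>
    (h1 _ (Finset.insert_nonempty v s) (cq s v q fun a ha => h a ha v hv)).mono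
      (fun _ => Subset.rfl) fun n b hb =>
        ⟨fun x hx => hb x (by simp [show x ∈ s from hx]), v, hv, hb v (by simp)⟩
  have sg : ∀ r (s : Finset I) (v : I) n, Un (S r) s {v} n ⊆ It (S r) (insert v s : Finset I) n := by
    rintro r s v n b ⟨h1, _, rfl, h2⟩ x hx
    rcases Finset.mem_insert.1 hx with rfl | hx
    exacts [h2, h1 x hx]
  induction m with
  | zero =>
    intro r
    obtain ⟨r1, h1⟩ := ha r
    refine ⟨max r r1, le_max_left _ _, ?_⟩
    rintro s _ ⟨v, rfl⟩ q h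
    exact (one r r1 h1 s {v} v rfl q h).mono
      (fun n => (sg _ s v n).trans (mI _ _ (le_max_right _ _) _ _)) fun _ => Subset.rfl
  | succ m ih =>
    intro r
    obtain ⟨r1, h1⟩ := ha r
    obtain ⟨r2, l2, h2⟩ := ih r
    obtain ⟨r3, l3, h3⟩ := ih (max r1 r2)
    refine ⟨r3, l2.trans ((le_max_right _ _).trans l3), ?_⟩
    rintro s t (⟨v, rfl⟩ | ⟨v, hv, n1, n2⟩) q h
    · exact (one r r1 h1 s {v} v rfl q h).mono
        (fun n => (sg _ s v n).trans (mI _ _ ((le_max_left _ _).trans l3) _ _)) fun _ => Subset.rfl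
    have A1 := (one r r1 h1 s t v hv q h).mono (mI _ _ (le_max_left r1 r2) _) fun _ => Subset.rfl
    have A2 : Ac d ε (Un (S (max r1 r2)) s (t \ {v})) (Un (S r) s t) :=
      (h2 s _ n1 q fun a ha b hb => h a ha b hb.1).mono (mU _ _ (le_max_right _ _) _ _) fun n b hb =>
        ⟨hb.1, hb.2.imp fun x hx => ⟨hx.1.1, hx.2⟩⟩
    have q1 := cq s v q fun a ha => h a ha v hv
    have h' : ∀ a ∈ insert v s, ∀ b ∈ Lk R t v, R a b := fun a ha b hb => by
      rcases Finset.mem_insert.1 ha with rfl | ha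
      exacts [hb.2, h a ha b hb.1.1]
    have A3 := Ac.union (P₁ := It (S r3) (insert v s : Finset I))
      (P₂ := Un (S r3) s (t \ {v})) (cl_it (hc r3) _) (cl_un (hc r3) _ _) hdd
      (mI _ _ l3 _) (mU _ _ l3 _ _) ((h3 _ _ n2 q1 h').mono (fun n b hb => ⟨hb.1,
        hb.2.2.imp fun x hx' => ⟨⟨hx'.1, hx r3 v x n b (hb.1 v (by simp)) hx'.2⟩, hx'.2⟩⟩)
        fun n b hb => ⟨hb.1, fun x hx => hb.1 x (by simp [show x ∈ s from hx]),
          hb.2.imp fun x hx' => ⟨hx'.1.1, hx'.2⟩⟩) A1 A2 (by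
        obtain ⟨y, hy⟩ := n2.nonempty
        obtain ⟨p, hp1, hp2⟩ := hp (max r1 r2) (insert y (insert v s)) (Finset.insert_nonempty _ _)
          (cq _ y q1 fun a ha => h' a ha y hy)
        exact ⟨p, ⟨fun x hx => hp1 x (Finset.mem_insert_of_mem hx),
          fun x hx => hp1 x (by simp [show x ∈ s from hx]), y, hy.1, hp1 y (by simp)⟩, hp2⟩)
    refine A3.mono (fun n b hb => ?_) fun _ => Subset.rfl
    obtain ⟨y, hy, hb'⟩ := hb.2
    by_cases e' : y = v
    · refine Or.inl fun x hx => ?_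
      rcases Finset.mem_insert.1 hx with rfl | hx
      · exact e' ▸ hb'
      · exact hb.1 x hx
    · exact Or.inr ⟨hb.1, y, ⟨hy, e'⟩, hb'⟩

end pro

end Crest.Agent.N255.Nv

end
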