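import Crest.Agent.N255.Nv.Ctg
import Crest.Agent.N255.Tp.Sm

/-!
# Row 255 (helper2): the pro-nerve theorem in cohomological form
-/

set_option autoImplicit false
open Set Finsupp

noncomputable section

namespace Crest.Agent.N255.Nv.Nr

open Crest.Agent.N255.Tp

/-- a pro-acyclic cover of `Q` with labels -/
structure Sy (k X I : Type) [CommRing k] [TopologicalSpace X] where
  R : I → I → Prop
  M : Set I
  cv : Set (Set X)
  V : I → ℕ → Set X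
  Q : Set X
  l : X → I
  refl : ∀ a, R a a
  symm : ∀ a b, R a b → R b a
  op : ∀ U ∈ cv, IsOpen U
  cov : univ ⊆ ⋃₀ cv
  anti : ∀ a, Antitone (V a)
  ne : ∀ a ∈ M, ∀ n, (V a n).Nonempty
  ac : ∀ n, ∃ n', n ≤ n' ∧ ∀ s : Finset I, s.Nonempty → ↑s ⊆ M → Cq R s →
    Acy k (⋃ a ∈ s, V a n') (⋃ a ∈ s, V a n)
  VQ : ∀ a ∈ M, V a 0 ⊆ Q
  lM : ∀ x ∈ Q, l x ∈ M
  cl : ∀ U ∈ cv, ∀ x ∈ U, ∀ y ∈ U, x ∈ Q → y ∈ Q → R (l x) (l y)
  ad : ∀ a ∈ M, ∀ U ∈ cv, ∀ x ∈ U, ∀ y ∈ U, x ∈ V a 0 → y ∈ Q → R a (l y)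

variable {k X I : Type} [CommRing k] [TopologicalSpace X] {A : Type} [AddCommGroup A] [Module k A]

theorem pick2 {B M M' : Type} [AddCommGroup M] [Module k M] [AddCommGroup M'] [Module k M']
    {F : (B →₀ k) →ₗ[k] M'} {d : M' →ₗ[k] M} {z : (B →₀ k) →ₗ[k] M} {N : B → Submodule k M'}
    (hF : F = pick d z N) (a : B) (w : M) (hw : z (single a 1) = w) (h : ∃ b ∈ N a, d b = w) :
    F (single a 1) ∈ N a ∧ d (F (single a 1)) = w := by
  subst hF hw; exact pick_spec h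

namespace Sy

variable (S : Sy k X I) {n m N : ℕ}

/-- small simplices in a set -/
abbrev Sb (B : Set X) : Tp.Sb X := (On B).inf (Sm S.cv)

/-- small chains in the carrier of `s` -/
def SC (s : Set I) (r m : ℕ) : Submodule k (Ch k m X) := (S.Sb (⋃ a ∈ s, S.V a r)).ch k m

/-- clique tuples -/
abbrev C (n : ℕ) : Set (Tu I n) := CT S.R S.M n

theorem Sb_le {B B' : Set X} (h : B ⊆ B') : (S.Sb B).Le (S.Sb B') :=
  fun n _ hσ => ⟨On_le h n hσ.1, hσ.2⟩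

theorem SC_mono {s s' : Set I} {r r' : ℕ} (h : s ⊆ s') (hr : r' ≤ r) : S.SC s r m ≤ S.SC s' r' m :=
  Tp.Sb.ch_mono (S.Sb_le (iUnion₂_subset fun a ha =>
    (S.anti a hr).trans (subset_biUnion_of_mem (u := fun a => S.V a r') (h ha))))

theorem SC_le {s : Set I} {r : ℕ} (h : s ⊆ S.M) : S.SC s r m ≤ (S.Sb S.Q).ch k m :=
  Tp.Sb.ch_mono (S.Sb_le (iUnion₂_subset fun a ha =>
    (S.anti a (Nat.zero_le r)).trans (S.VQ a (h ha))))

/-- one retreat -/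
def Stp (r' r : ℕ) : Prop := r ≤ r' ∧ ∀ s : Finset I, s.Nonempty → ↑s ⊆ S.M → Cq S.R s →
  Acy k (⋃ a ∈ s, S.V a r') (⋃ a ∈ s, S.V a r)

theorem exists_st (N : ℕ) : ∃ st : ℕ → ℕ, ∀ n < N, S.Stp (st n) (st (n + 1)) := by
  choose ρ hρ using S.ac
  refine ⟨fun n => ρ^[N - n] 0, fun n hn => ?_⟩
  simp only [show N - n = N - (n + 1) + 1 by omega, Function.iterate_succ_apply']
  exact hρ _

variable {S}

theorem fill {r r' : ℕ} (h : S.Stp r' r) {v : Tu I n} (hv : v ∈ S.C n) {c : Ch k m X}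
    (hc : c ∈ S.SC (range v) r' m) (h0 : c ∈ rcyc k X m) :
    ∃ b ∈ S.SC (range v) r (m + 1), bd k b = c := by
  classical
  have e : ((Finset.univ.image v : Finset I) : Set I) = range v := by simp
  have a := h.2 (Finset.univ.image v) (Finset.univ_nonempty.image v) (e ▸ hv.1) (e ▸ hv.2)
  simp only [← Finset.mem_coe, e] at a
  obtain ⟨b, hb, rfl⟩ := a m ⟨Tp.Sb.ch_mono Tp.Sb.inf_le_left hc, h0⟩
  obtain ⟨s, hs, d, -, hd⟩ := smChS_holds k X _ S.cv S.op ((subset_univ _).trans S.cov) m b hb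
    (Tp.Sb.ch_mono Tp.Sb.inf_le_right hc)
  refine ⟨s, hs, ?_⟩
  rw [← sub_eq_zero, ← map_sub, ← neg_sub, ← hd, map_neg, bd_bd, neg_zero]

theorem bd_rc : ∀ {n} (c : Ch k (n + 1) X), bd k c ∈ rcyc k X n
  | 0, c => aug_bd c
  | _ + 1, c => bd_bd c

theorem single_C {v : Tu I (n + 1)} :
    tb k n (single v 1) ∈ supported k k {ω : Tu I n | range ω ⊆ range v} :=
  tb_mem (P := fun t => t ⊆ range v) (fun _ _ h h' => h.trans h')
    (single_mem_supported k 1 Subset.rfl)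

theorem tb_C {v : Tu I (n + 1)} (hv : v ∈ S.C (n + 1)) :
    tb k n (single v 1) ∈ supported k k (S.C n) :=
  supported_mono (fun _ hω => CT.of_sub hv.1 hv.2 hω) single_C

variable (S) (st : ℕ → ℕ)

open Classical in
/-- the chain map back -/
def jj : ∀ n, (Tu I n →₀ k) →ₗ[k] Ch k n X
  | 0 => linearCombination k fun v =>
      if h : (S.V (v 0) (st 0)).Nonempty then sg k (ContinuousMap.const _ h.some) else 0
  | n + 1 => pick (bd k) (jj n ∘ₗ tb k n) fun v => S.SC (range v) (st (n + 1)) (n + 1)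

theorem jj_succ (n : ℕ) : S.jj st (n + 1) =
    pick (bd k) (S.jj st n ∘ₗ tb k n) fun v => S.SC (range v) (st (n + 1)) (n + 1) := rfl

variable {S st}

theorem jj_zero {v : Tu I 0} (hv : v ∈ S.C 0) : S.jj st 0 (single v 1) ∈ S.SC (range v) (st 0) 0 ∧
    aug k (S.jj st 0 (single v 1)) = 1 := by
  have h := S.ne _ (hv.1 ⟨0, rfl⟩) (st 0)
  rw [jj, linearCombination_single, one_smul, dif_pos h]
  obtain ⟨U, hU, hx⟩ := S.cov (mem_univ h.some)
  refine ⟨Tp.Sb.sg_mem ⟨?_, U, hU, ?_⟩, aug_sg _⟩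
  · rintro _ ⟨t, rfl⟩; exact mem_biUnion (mem_range_self 0) h.some_mem
  · rintro _ ⟨t, rfl⟩; exact hx

theorem aug_jj {c : Tu I 0 →₀ k} (hc : c ∈ supported k k (S.C 0)) : aug k (S.jj st 0 c) = ta k c :=
  eq_of (F := aug k ∘ₗ S.jj st 0) (fun v hv => by
    rw [LinearMap.comp_apply, (jj_zero hv).2, ta_single]) hc

variable (hs : ∀ n < N, S.Stp (st n) (st (n + 1)))
include hs

theorem jj_spec : ∀ n ≤ N, (∀ v ∈ S.C n, S.jj st n (single v 1) ∈ S.SC (range v) (st n) n) ∧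
    (∀ c ∈ supported k k (S.C (n + 1)), S.jj st n (tb k n c) ∈ rcyc k X n) ∧
    ∀ m, n = m + 1 → ∀ c ∈ supported k k (S.C (m + 1)),
      bd k (S.jj st (m + 1) c) = S.jj st m (tb k m c) := by
  intro n
  induction n with
  | zero =>
    exact fun _ => ⟨fun v hv => (jj_zero hv).1, fun c hc => mem_of
      (F := S.jj st 0 ∘ₗ tb k 0) (fun v hv => show aug k _ = 0 by
        rw [LinearMap.comp_apply, aug_jj (tb_C hv), ta_tb]) hc, fun m h => by omega⟩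
  | succ n ih =>
    intro hn
    obtain ⟨h1, h2, -⟩ := ih (by omega)
    have key : ∀ v ∈ S.C (n + 1), S.jj st (n + 1) (single v 1) ∈ S.SC (range v) (st (n + 1)) (n + 1) ∧
        bd k (S.jj st (n + 1) (single v 1)) = S.jj st n (tb k n (single v 1)) := fun v hv =>
      (pick2 (S.jj_succ st n) v _ rfl (fill (hs n (by omega)) hv (mem_of (F := S.jj st n) (fun ω hω =>
        S.SC_mono hω le_rfl (h1 ω (CT.of_sub hv.1 hv.2 hω))) single_C)
        (h2 _ (single_mem_supported k 1 hv))) : _)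
    have k2 : ∀ c ∈ supported k k (S.C (n + 1)), bd k (S.jj st (n + 1) c) = S.jj st n (tb k n c) :=
      fun c hc => eq_of (F := bd k ∘ₗ S.jj st (n + 1)) (F' := S.jj st n ∘ₗ tb k n)
        (fun v hv => (key v hv).2) hc
    refine ⟨fun v hv => (key v hv).1, fun c hc => mem_of (F := S.jj st (n + 1) ∘ₗ tb k (n + 1))
      (fun v hv => show bd k _ = 0 from ?_) hc, fun m h => ?_⟩
    · rw [LinearMap.comp_apply, k2 _ (tb_C hv), tb_tb, map_zero]
    · obtain rfl : n = m := by omega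
      exact k2

theorem jj_mem (hn : n ≤ N) {v : Tu I n} (hv : v ∈ S.C n) :
    S.jj st n (single v 1) ∈ S.SC (range v) (st n) n := (jj_spec hs n hn).1 v hv

theorem bd_jj (hn : n + 1 ≤ N) {c : Tu I (n + 1) →₀ k} (hc : c ∈ supported k k (S.C (n + 1))) :
    bd k (S.jj st (n + 1) c) = S.jj st n (tb k n c) := (jj_spec hs _ hn).2.2 n rfl c hc

omit hs

/-- the relation restricted to `M` -/
def R' (S : Sy k X I) (a b : I) : Prop := S.R a b ∧ a ∈ S.M ∧ b ∈ S.M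

/-- carriers of tuples -/
abbrev TC (S : Sy k X I) (s : Set I) (n : ℕ) : Set (Tu I n) := Un (St S.R') ∅ s n

theorem TC_C {s : Set I} {ω : Tu I n} (h : ω ∈ S.TC s n) : ω ∈ S.C n := by
  obtain ⟨a, -, ha⟩ := h.2
  exact ⟨fun x hx => (ha x (Or.inr hx) x (Or.inr hx)).2.1,
    fun x hx y hy => (ha x (Or.inr hx) y (Or.inr hy)).1⟩

theorem TC_mono {s s' : Set I} (h : s ⊆ s') : S.TC s n ⊆ S.TC s' n :=
  fun _ hω => ⟨hω.1, hω.2.imp fun _ ha => ⟨h ha.1, ha.2⟩⟩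

theorem self_TC {v : Tu I n} (hv : v ∈ S.C n) : v ∈ S.TC (range v) n :=
  ⟨fun _ h => h.elim, v 0, ⟨0, rfl⟩, by
    change Cq _ (insert _ _)
    rw [insert_eq_of_mem (mem_range_self 0)]
    exact fun x hx y hy => ⟨hv.2 x hx y hy, hv.1 hx, hv.1 hy⟩⟩

theorem vl_C {σ : Sx n X} (h : σ ∈ (S.Sb S.Q).S n) : vl S.l σ ∈ S.C n := by
  obtain ⟨h1, U, hU, h2⟩ := h
  refine ⟨?_, ?_⟩
  · rintro _ ⟨i, rfl⟩; exact S.lM _ (h1 ⟨_, rfl⟩)
  · rintro _ ⟨i, rfl⟩ _ ⟨j, rfl⟩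
    exact S.cl U hU _ (h2 ⟨_, rfl⟩) _ (h2 ⟨_, rfl⟩) (h1 ⟨_, rfl⟩) (h1 ⟨_, rfl⟩)

theorem lb_TC {s : Set I} {r : ℕ} (h : s ⊆ S.M) {c : Ch k n X} (hc : c ∈ S.SC s r n) :
    lb k S.l n c ∈ supported k k (S.TC s n) :=
  Tp.Sb.map_mem _ _ (fun σ hσ => by
    rw [lb_sg]
    have hQ : σ ∈ (S.Sb S.Q).S n := S.Sb_le (iUnion₂_subset fun a ha =>
      (S.anti a (Nat.zero_le r)).trans (S.VQ a (h ha))) n hσ
    have hC := vl_C hQ
    obtain ⟨h1, U, hU, h2⟩ := hσ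
    obtain ⟨a, ha, hx⟩ := mem_iUnion₂.1 (h1 ⟨stdSimplex.vertex 0, rfl⟩)
    have had : ∀ y ∈ range (vl S.l σ), S.R a y := by
      rintro _ ⟨i, rfl⟩
      exact S.ad a (h ha) U hU _ (h2 ⟨_, rfl⟩) _ (h2 ⟨_, rfl⟩) (S.anti a (Nat.zero_le r) hx)
        (hQ.1 ⟨_, rfl⟩)
    refine single_mem_supported k 1 ⟨fun _ h => h.elim, a, ha, ?_⟩
    rintro x (rfl | hx') y (rfl | hy)
    exacts [⟨S.refl _, h ha, h ha⟩, ⟨had y hy, h ha, hC.1 hy⟩,
      ⟨S.symm _ _ (had x hx'), hC.1 hx', h ha⟩, ⟨hC.2 x hx' y hy, hC.1 hx', hC.1 hy⟩]) hc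

theorem fillT {v : Tu I n} (hv : v ∈ S.C n) {c : Tu I m →₀ k}
    (hc : c ∈ supported k k (S.TC (range v) m)) (h0 : c ∈ rc (tb k) (ta k) m) :
    ∃ b ∈ supported k k (S.TC (range v) (m + 1)), tb k m b = c := by
  classical
  have e : ((Finset.univ.image v : Finset I) : Set I) = range v := by simp
  have a := ac_st (k := k) (R := S.R') (Finset.univ.image v) (Finset.univ_nonempty.image v)
    (e ▸ fun x hx y hy => ⟨hv.2 x hx y hy, hv.1 hx, hv.1 hy⟩)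
  rw [e] at a
  exact a m c hc h0

variable (S st)

/-- the homotopy on tuples -/
def ht : ∀ n, (Tu I n →₀ k) →ₗ[k] (Tu I (n + 1) →₀ k)
  | 0 => pick (tb k 0) (LinearMap.id - lb k S.l 0 ∘ₗ S.jj st 0) fun v =>
      supported k k (S.TC (range v) 1)
  | n + 1 => pick (tb k (n + 1)) (LinearMap.id - lb k S.l (n + 1) ∘ₗ S.jj st (n + 1) - ht n ∘ₗ tb k n)
      fun v => supported k k (S.TC (range v) (n + 2))

/-- the homotopy on singular chains -/
def hx : ∀ n, Ch k n X →ₗ[k] Ch k (n + 1) X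
  | 0 => pick (bd k) (LinearMap.id - S.jj st 0 ∘ₗ lb k S.l 0) fun σ =>
      S.SC (range (vl S.l σ)) (st 1) 1
  | n + 1 => pick (bd k) (LinearMap.id - S.jj st (n + 1) ∘ₗ lb k S.l (n + 1) - hx n ∘ₗ bd k)
      fun σ => S.SC (range (vl S.l σ)) (st (n + 2)) (n + 2)

theorem ht_zero : S.ht st 0 = pick (tb k 0) (LinearMap.id - lb k S.l 0 ∘ₗ S.jj st 0) fun v =>
    supported k k (S.TC (range v) 1) := rfl

theorem ht_succ (n : ℕ) : S.ht st (n + 1) = pick (tb k (n + 1))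
    (LinearMap.id - lb k S.l (n + 1) ∘ₗ S.jj st (n + 1) - S.ht st n ∘ₗ tb k n)
      fun v => supported k k (S.TC (range v) (n + 2)) := rfl

theorem hx_zero : S.hx st 0 = pick (bd k) (LinearMap.id - S.jj st 0 ∘ₗ lb k S.l 0) fun σ =>
    S.SC (range (vl S.l σ)) (st 1) 1 := rfl

theorem hx_succ (n : ℕ) : S.hx st (n + 1) = pick (bd k)
    (LinearMap.id - S.jj st (n + 1) ∘ₗ lb k S.l (n + 1) - S.hx st n ∘ₗ bd k)
      fun σ => S.SC (range (vl S.l σ)) (st (n + 2)) (n + 2) := rfl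

variable {S st}
include hs

theorem ht_spec : ∀ n ≤ N, (∀ v ∈ S.C n, S.ht st n (single v 1) ∈
      supported k k (S.TC (range v) (n + 1))) ∧
    (n + 1 ≤ N → ∀ c ∈ supported k k (S.C (n + 1)), tb k n (S.ht st n (tb k n c)) =
      tb k n (c - lb k S.l (n + 1) (S.jj st (n + 1) c))) ∧
    ∀ m, n = m + 1 → ∀ v ∈ S.C (m + 1), tb k (m + 1) (S.ht st (m + 1) (single v 1)) =
      single v 1 - lb k S.l (m + 1) (S.jj st (m + 1) (single v 1)) -
        S.ht st m (tb k m (single v 1)) := by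
  have hm : ∀ n ≤ N, ∀ v ∈ S.C n, single v 1 - lb k S.l n (S.jj st n (single v 1)) ∈
      supported k k (S.TC (range v) n) := fun n hn v hv =>
    Submodule.sub_mem _ (single_mem_supported k 1 (self_TC hv)) (lb_TC hv.1 (jj_mem hs hn hv))
  intro n
  induction n with
  | zero =>
    intro hn
    have key : ∀ v ∈ S.C 0, S.ht st 0 (single v 1) ∈ supported k k (S.TC (range v) 1) ∧
        tb k 0 (S.ht st 0 (single v 1)) = single v 1 - lb k S.l 0 (S.jj st 0 (single v 1)) :=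
      fun v hv => (pick2 (S.ht_zero st) v _ rfl (fillT hv (hm 0 hn v hv)
        (show ta k (single v 1 - lb k S.l 0 (S.jj st 0 (single v 1))) = 0 by
          rw [map_sub, ta_lb, (jj_zero hv).2, ta_single, sub_self])) : _)
    refine ⟨fun v hv => (key v hv).1, fun h1 c hc => ?_, fun m h => by omega⟩
    rw [map_sub, tb_lb, bd_jj hs h1 hc]
    exact eq_of (F := tb k 0 ∘ₗ S.ht st 0) (F' := LinearMap.id - lb k S.l 0 ∘ₗ S.jj st 0)
      (fun v hv => (key v hv).2) (mem_of (fun v hv => tb_C hv) hc)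
  | succ n ih =>
    intro hn
    obtain ⟨h1, h2, -⟩ := ih (by omega)
    have key : ∀ v ∈ S.C (n + 1), S.ht st (n + 1) (single v 1) ∈
        supported k k (S.TC (range v) (n + 2)) ∧ tb k (n + 1) (S.ht st (n + 1) (single v 1)) =
        single v 1 - lb k S.l (n + 1) (S.jj st (n + 1) (single v 1)) -
          S.ht st n (tb k n (single v 1)) := fun v hv =>
      (pick2 (S.ht_succ st n) v (single v 1 - lb k S.l (n + 1) (S.jj st (n + 1) (single v 1)) -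
          S.ht st n (tb k n (single v 1))) rfl
        (fillT hv (Submodule.sub_mem _ (hm _ hn v hv) (mem_of (F := S.ht st n) (fun ω hω =>
          supported_mono (TC_mono hω) (h1 ω (CT.of_sub hv.1 hv.2 hω))) single_C))
          ((map_sub (tb k n) _ _).trans
            (sub_eq_zero.2 (h2 hn _ (single_mem_supported k 1 hv)).symm))) : _)
    refine ⟨fun v hv => (key v hv).1, fun h3 c hc => ?_, fun m h => ?_⟩
    · rw [map_sub, tb_lb, bd_jj hs h3 hc]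
      have := eq_of (F := tb k (n + 1) ∘ₗ S.ht st (n + 1))
        (F' := LinearMap.id - lb k S.l (n + 1) ∘ₗ S.jj st (n + 1) - S.ht st n ∘ₗ tb k n)
        (fun v hv => (key v hv).2) (mem_of (fun v hv => tb_C hv) hc)
      simpa [tb_tb] using this
    · obtain rfl : n = m := by omega
      exact fun v hv => (key v hv).2

omit hs in
/-- **injectivity of the pull back** -/
theorem inj (S : Sy k X I) {ψ : Tu I (n + 1) → A} (hψ : ∀ v ∈ S.C (n + 2), td k ψ v = 0)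
    (h : rs S.l ψ ∈ (S.Sb S.Q).Ex k A (n + 1)) :
    ∃ η : Tu I n → A, ∀ v ∈ S.C (n + 1), ψ v = td k η v := by
  obtain ⟨st, hs⟩ := S.exists_st (n + 1)
  obtain ⟨θ, hθ⟩ := Tp.Sb.mem_Ex.1 h
  obtain ⟨h1, -, h2⟩ := ht_spec hs (n + 1) le_rfl
  refine ⟨fun ω => ev k θ (S.jj st n (single ω 1)) +
    linearCombination k ψ (S.ht st n (single ω 1)), fun v hv => ?_⟩
  have e1 := congrArg (linearCombination k ψ) (h2 n rfl v hv)
  rw [lc_tb, lc_zero hψ (supported_mono (fun _ => TC_C) (h1 v hv)), map_sub, map_sub, ← ev_rs,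
    Tp.Sb.ev_congr hθ (S.SC_le hv.1 (jj_mem hs le_rfl hv)), ← ev_bd,
    bd_jj hs le_rfl (single_mem_supported k 1 hv), linearCombination_single, one_smul] at e1
  rw [td_eq, tu_ext (T := ev k θ ∘ₗ S.jj st n + linearCombination k ψ ∘ₗ S.ht st n)
    (fun τ => by simp)]
  rw [← sub_eq_zero, e1]
  simp only [LinearMap.add_apply, LinearMap.comp_apply]
  abel

variable {Q' : Set X} (hQ : Q' ⊆ S.Q)
  (hV : ∀ U ∈ S.cv, ∀ x ∈ U, ∀ y ∈ U, x ∈ Q' → y ∈ Q' → y ∈ S.V (S.l x) (st 0))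
include hQ hV

theorem hx_spec : ∀ n, n + 1 ≤ N → (∀ σ ∈ (S.Sb Q').S n, S.hx st n (sg k σ) ∈
      S.SC (range (vl S.l σ)) (st (n + 1)) (n + 1)) ∧
    (∀ c ∈ (S.Sb Q').ch k (n + 1), bd k (S.hx st n (bd k c)) =
      bd k (c - S.jj st (n + 1) (lb k S.l (n + 1) c))) ∧
    (n = 0 → ∀ σ ∈ (S.Sb Q').S 0, bd k (S.hx st 0 (sg k σ)) =
      sg k σ - S.jj st 0 (lb k S.l 0 (sg k σ))) ∧
    ∀ m, n = m + 1 → ∀ σ ∈ (S.Sb Q').S (m + 1), bd k (S.hx st (m + 1) (sg k σ)) =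
      sg k σ - S.jj st (m + 1) (lb k S.l (m + 1) (sg k σ)) - S.hx st m (bd k (sg k σ)) := by
  have hC : ∀ {n} {σ : Sx n X}, σ ∈ (S.Sb Q').S n → vl S.l σ ∈ S.C n :=
    fun h => vl_C (S.Sb_le hQ _ h)
  have lC : ∀ {n} {c : Ch k n X}, c ∈ (S.Sb Q').ch k n → lb k S.l n c ∈ supported k k (S.C n) :=
    fun h => Tp.Sb.map_mem _ _ (fun σ hσ => by
      rw [lb_sg]; exact single_mem_supported k 1 (hC hσ)) h
  have st0 : ∀ n ≤ N, st n ≤ st 0 := fun n => by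
    induction n with
    | zero => exact fun _ => le_rfl
    | succ n ih => exact fun h => (hs n (by omega)).1.trans (ih (by omega))
  have hm : ∀ n ≤ N, ∀ σ ∈ (S.Sb Q').S n, sg k σ - S.jj st n (lb k S.l n (sg k σ)) ∈
      S.SC (range (vl S.l σ)) (st n) n := fun n hn σ hσ => by
    refine Submodule.sub_mem _ (S.SC_mono Subset.rfl (st0 n hn) (Tp.Sb.sg_mem ⟨?_, hσ.2⟩)) ?_
    · obtain ⟨h1, U, hU, h2⟩ := hσ
      exact fun y hy => mem_biUnion (mem_range_self 0)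
        (hV U hU _ (h2 ⟨_, rfl⟩) y (h2 hy) (h1 ⟨_, rfl⟩) (h1 hy))
    · rw [lb_sg]; exact jj_mem hs hn (hC hσ)
  intro n
  induction n with
  | zero =>
    intro hn
    have key : ∀ σ ∈ (S.Sb Q').S 0, S.hx st 0 (sg k σ) ∈ S.SC (range (vl S.l σ)) (st 1) 1 ∧
        bd k (S.hx st 0 (sg k σ)) = sg k σ - S.jj st 0 (lb k S.l 0 (sg k σ)) := fun σ hσ =>
      (pick2 (S.hx_zero st) σ _ rfl (fill (hs 0 hn) (hC hσ) (hm 0 (by omega) σ hσ)
        (show aug k (sg k σ - S.jj st 0 (lb k S.l 0 (sg k σ))) = 0 by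
          rw [map_sub, lb_sg, (jj_zero (hC hσ)).2, aug_sg, sub_self])) : _)
    refine ⟨fun σ hσ => (key σ hσ).1, fun c hc => ?_, fun _ σ hσ => (key σ hσ).2,
      fun m h => by omega⟩
    rw [map_sub, bd_jj hs hn (lC hc), tb_lb]
    exact eq_of (F := bd k ∘ₗ S.hx st 0) (F' := LinearMap.id - S.jj st 0 ∘ₗ lb k S.l 0)
      (fun σ hσ => (key σ hσ).2) (Tp.Sb.bd_mem hc)
  | succ n ih =>
    intro hn
    obtain ⟨h1, h2, -⟩ := ih (by omega)
    have key : ∀ σ ∈ (S.Sb Q').S (n + 1), S.hx st (n + 1) (sg k σ) ∈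
        S.SC (range (vl S.l σ)) (st (n + 2)) (n + 2) ∧ bd k (S.hx st (n + 1) (sg k σ)) =
        sg k σ - S.jj st (n + 1) (lb k S.l (n + 1) (sg k σ)) - S.hx st n (bd k (sg k σ)) :=
      fun σ hσ => (pick2 (S.hx_succ st n) σ
        (sg k σ - S.jj st (n + 1) (lb k S.l (n + 1) (sg k σ)) - S.hx st n (bd k (sg k σ))) rfl
        (fill (hs (n + 1) hn) (hC hσ) (Submodule.sub_mem _ (hm _ (by omega) σ hσ) (by
          rw [Tp.bd_sg, map_sum]
          refine Submodule.sum_mem _ fun i _ => ?_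
          rw [map_smul]
          refine Submodule.smul_mem _ _ (S.SC_mono ?_ le_rfl (h1 _ ((S.Sb Q').fc_mem n σ i hσ)))
          rw [vl_fc]; exact range_tf _ i))
          ((map_sub (bd k) _ _).trans (sub_eq_zero.2 (h2 _ (Tp.Sb.sg_mem hσ)).symm))) : _)
    refine ⟨fun σ hσ => (key σ hσ).1, fun c hc => ?_, fun h => by omega, fun m h => ?_⟩
    · rw [map_sub, bd_jj hs hn (lC hc), tb_lb]
      have := eq_of (F := bd k ∘ₗ S.hx st (n + 1))
        (F' := LinearMap.id - S.jj st (n + 1) ∘ₗ lb k S.l (n + 1) - S.hx st n ∘ₗ bd k)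
        (fun σ hσ => (key σ hσ).2) (Tp.Sb.bd_mem hc)
      simpa [bd_bd] using this
    · obtain rfl : n = m := by omega
      exact fun σ hσ => (key σ hσ).2

omit hs hQ hV in
/-- **surjectivity of the pull back** -/
theorem sur (S : Sy k X I) (N : ℕ) : ∃ r, ∀ Q' ⊆ S.Q,
    (∀ U ∈ S.cv, ∀ x ∈ U, ∀ y ∈ U, x ∈ Q' → y ∈ Q' → y ∈ S.V (S.l x) r) → ∀ n ≤ N,
    ∀ (A : Type) [AddCommGroup A] [Module k A], ∀ φ ∈ (S.Sb S.Q).Z k A n,
      ∃ ψ : Tu I n → A, (∀ v ∈ S.C (n + 1), td k ψ v = 0) ∧ φ - rs S.l ψ ∈ (S.Sb Q').Ex k A n := by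
  obtain ⟨st, hs⟩ := S.exists_st (N + 1)
  refine ⟨st 0, fun Q' hQ hV n hn A _ _ φ hφ => ?_⟩
  have e : ∀ c, linearCombination k (fun v => ev k φ (S.jj st n (single v 1))) c =
      ev k φ (S.jj st n c) := tu_ext (T := ev k φ ∘ₗ S.jj st n) fun τ => by simp
  obtain ⟨h1, -, h2, h3⟩ := hx_spec hs hQ hV n (by omega)
  have h0 : ∀ σ ∈ (S.Sb Q').S n, ev k φ (bd k (S.hx st n (sg k σ))) = 0 := fun σ hσ =>
    Tp.Sb.ev_B hφ (Tp.Sb.bd_mem_B (S.SC_le (vl_C (S.Sb_le hQ _ hσ)).1 (h1 σ hσ)))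
  refine ⟨fun v => ev k φ (S.jj st n (single v 1)), fun v hv => ?_, ?_⟩
  · rw [td_eq, e, ← bd_jj hs (by omega) (single_mem_supported k 1 hv)]
    exact Tp.Sb.ev_B hφ (Tp.Sb.bd_mem_B (S.SC_le hv.1 (jj_mem hs (by omega) hv)))
  · cases n with
    | zero =>
      intro σ hσ
      have := h0 σ hσ
      rwa [h2 rfl σ hσ, map_sub, Tp.ev_sg, lb_sg] at this
    | succ n =>
      refine Tp.Sb.mem_Ex.2 ⟨fun τ => ev k φ (S.hx st n (sg k τ)), fun σ hσ => ?_⟩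
      have := h0 σ hσ
      rw [h3 n rfl σ hσ, map_sub, map_sub, Tp.ev_sg, lb_sg,
        show ev k φ (S.hx st n (bd k (sg k σ))) = _ from map_eq_ev (ev k φ ∘ₗ S.hx st n) _, Tp.ev_bd,
        Tp.ev_sg] at this
      exact this

end Sy

end Crest.Agent.N255.Nv.Nr

end
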