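import Crest.Agent.N255.Nv.Abs

/-!
# Row 255 (helper36): retraction of a clique complex onto a full subcomplex with acyclic links
-/

set_option autoImplicit false
open Set Finsupp

noncomputable section

namespace Crest.Agent.N255.Nv

variable {k : Type} [CommRing k] {I : Type} {R : I → I → Prop} {A U : Set I} {n : ℕ}

/-- clique tuples in `U` -/
def CU (R : I → I → Prop) (U : Set I) (n : ℕ) : Set (Tu I n) := {ω | range ω ⊆ U ∧ Cq R (range ω)}

/-- clique tuples in `A` in the closed star of `a` -/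
def SA (R : I → I → Prop) (A : Set I) (a : I) (n : ℕ) : Set (Tu I n) :=
  {ω | range ω ⊆ A ∧ Cq R (insert a (range ω))}

variable (k) in
/-- the links in `A` of the cliques of `U` outside `A` are acyclic -/
def LkAc (R : I → I → Prop) (A U : Set I) : Prop :=
  ∀ s : Finset I, s.Nonempty → ↑s ⊆ U → Disjoint (s : Set I) A → Cq R ↑s →
    (It (SA R A) s 0).Nonempty ∧ Ac (tb k) (ta k) (It (SA R A) s) (It (SA R A) s)

theorem CU.mono (h : A ⊆ U) (n : ℕ) : CU R A n ⊆ CU R U n := fun _ hω => ⟨hω.1.trans h, hω.2⟩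

theorem tb_cu {c : Tu I (n + 1) →₀ k} (hc : c ∈ supported k k (CU R U (n + 1))) :
    tb k n c ∈ supported k k (CU R U n) :=
  tb_mem (P := fun s => s ⊆ U ∧ Cq R s) (fun _ _ h h' => ⟨h.trans h'.1, h'.2.mono h⟩) hc

theorem cl_sa (a : I) : Cl (tb k) (SA R A a) := fun _ _ hc =>
  tb_mem (P := fun s => s ⊆ A ∧ Cq R (insert a s))
    (fun _ _ h h' => ⟨h.trans h'.1, h'.2.mono (insert_subset_insert h)⟩) hc

/-- cones are acyclic -/
theorem ac_cone {P : ∀ n, Set (Tu I n)} (a : I) (h : ∀ n, ∀ ω ∈ P n, (Fin.cons a ω : Tu I (n + 1)) ∈ P (n + 1)) :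
    Ac (tb k) (ta k) P P := fun n c hc h0 =>
  ⟨cn k a n c, mem_of (fun ω hω => by rw [cn_single]; exact single_mem_supported k 1 (h n ω hω)) hc,
    tb_cn a h0⟩

theorem it_cone {s : Set I} (hq : Cq R s) {a : I} (ha : a ∈ s) (hA : a ∈ A) :
    (It (SA R A) s 0).Nonempty ∧ Ac (tb k) (ta k) (It (SA R A) s) (It (SA R A) s) := by
  refine ⟨⟨fun _ => a, fun b hb => ⟨by rintro _ ⟨_, rfl⟩; exact hA, hq.mono ?_⟩⟩,
    ac_cone a fun n ω hω b hb => ?_⟩
  · rintro x (rfl | ⟨_, rfl⟩)
    exacts [hb, ha]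
  · have h1 := (hω a ha).2
    have h2 := (hω b hb).2
    have e : range (Fin.cons a ω : Tu I (n + 1)) = insert a (range ω) := Fin.range_cons a ω
    change range _ ⊆ A ∧ Cq R (insert b (range _))
    rw [e]
    refine ⟨insert_subset hA (hω a ha).1, ?_⟩
    rintro x (rfl | hx) y (rfl | hy)
    · exact h2 _ (Or.inl rfl) _ (Or.inl rfl)
    · rcases hy with rfl | hy
      exacts [hq _ hb _ ha, h2 _ (Or.inl rfl) _ (Or.inr hy)]
    · rcases hx with rfl | hx
      exacts [hq _ ha _ hb, h2 _ (Or.inr hx) _ (Or.inl rfl)]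
    · exact h1 _ hx _ hy

theorem lkAc_self : LkAc k R U U := fun _ ⟨_, ha⟩ h hd _ => (disjoint_left.1 hd ha (h ha)).elim

theorem LkAc.it (H : LkAc k R A U) {s : Finset I} (hs : s.Nonempty) (hU : ↑s ⊆ U) (hq : Cq R ↑s) :
    (It (SA R A) s 0).Nonempty ∧ Ac (tb k) (ta k) (It (SA R A) s) (It (SA R A) s) := by
  by_cases c : Disjoint (s : Set I) A
  · exact H s hs hU c hq
  · obtain ⟨a, ha, hA⟩ := not_disjoint_iff.1 c
    exact it_cone hq ha hA

/-- the carrier of a set of labels -/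
abbrev Car (R : I → I → Prop) (A s : Set I) : ∀ n, Set (Tu I n) := Un (SA R A) ∅ s

theorem Car.mono {s t : Set I} (h : s ⊆ t) (hA : A ⊆ U) (n : ℕ) : Car R A s n ⊆ Car R U t n :=
  fun _ hb => ⟨fun _ ha => ha.elim, hb.2.imp fun _ ha => ⟨h ha.1, ha.2.1.trans hA, ha.2.2⟩⟩

theorem Car.sub {s : Set I} (n : ℕ) : Car R A s n ⊆ CU R A n := fun _ hb =>
  hb.2.elim fun _ ha => ⟨ha.2.1, ha.2.2.mono (subset_insert _ _)⟩

theorem self_car {ω : Tu I n} (h : ω ∈ CU R A n) : ω ∈ Car R A (range ω) n :=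
  ⟨fun _ ha => ha.elim, ω 0, ⟨0, rfl⟩, h.1, by
    rw [insert_eq_of_mem (mem_range_self 0)]; exact h.2⟩

theorem LkAc.car (H : LkAc k R A U) {ω : Tu I n} (h : ω ∈ CU R U n) :
    (Car R A (range ω) 0).Nonempty ∧ Ac (tb k) (ta k) (Car R A (range ω)) (Car R A (range ω)) := by
  classical
  have e : ((Finset.univ.image ω : Finset I) : Set I) = range ω := by simp
  have q : ∀ s : Finset I, Cq (fun a b => R a b ∧ a ∈ U) s → ↑s ⊆ U ∧ Cq R ↑s := fun s hs =>
    ⟨fun a ha => (hs a ha a ha).2, fun a ha b hb => (hs a ha b hb).1⟩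
  constructor
  · obtain ⟨p, hp⟩ := (H.it (Finset.singleton_nonempty (ω 0)) (by simpa using h.1 ⟨0, rfl⟩)
      (h.2.mono (by simp))).1
    exact ⟨p, fun _ ha => ha.elim, ω 0, ⟨0, rfl⟩, hp _ (by simp)⟩
  · obtain ⟨_, -, h'⟩ := ac_un (R := fun a b => R a b ∧ a ∈ U) (S := fun _ => SA R A) (d := tb k)
      (ε := ta k) tb_rc (fun _ a => cl_sa a) (fun _ _ _ _ _ => Subset.rfl)
      (fun _ s hs hq => (H.it hs (q s hq).1 (q s hq).2).1.imp fun p hp => ⟨hp, ta_single _⟩)
      (fun r => ⟨r, fun s hs hq => (H.it hs (q s hq).1 (q s hq).2).2⟩) (Finset.univ.image ω).card 0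
    have := h' ∅ (Finset.univ.image ω) (by simp) le_rfl (by
      rw [e, Finset.coe_empty, empty_union]; exact fun a ha b hb => ⟨h.2 a ha b hb, h.1 ha⟩)
    rwa [e, Finset.coe_empty] at this

theorem tb_car {m : ℕ} {G : (Tu I n →₀ k) →ₗ[k] (Tu I m →₀ k)}
    (h : ∀ ω ∈ CU R U n, G (single ω 1) ∈ supported k k (Car R A (range ω) m)) {ω : Tu I (n + 1)}
    (hω : ω ∈ CU R U (n + 1)) : G (tb k n (single ω 1)) ∈ supported k k (Car R A (range ω) m) := by
  rw [tb_single, map_sum]
  refine Submodule.sum_mem _ fun i _ => ?_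
  rw [map_smul]
  exact Submodule.smul_mem _ _ (supported_mono (Car.mono (range_tf ω i) Subset.rfl m)
    (h _ ⟨(range_tf ω i).trans hω.1, hω.2.mono (range_tf ω i)⟩))

variable (k R A) in
open Classical in
/-- the retraction -/
def rt : ∀ n, (Tu I n →₀ k) →ₗ[k] (Tu I n →₀ k)
  | 0 => linearCombination k fun ω => if range ω ⊆ A then single ω 1 else
      if h : (Car R A (range ω) 0).Nonempty then single h.some 1 else 0
  | n + 1 => linearCombination k fun ω => if range ω ⊆ A then single ω 1 else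
      pick (tb k n) (rt n ∘ₗ tb k n) (fun ω => supported k k (Car R A (range ω) (n + 1))) (single ω 1)

theorem rt_single {ω : Tu I n} (h : range ω ⊆ A) : rt k R A n (single ω 1) = single ω 1 := by
  cases n <;> rw [rt, linearCombination_single, one_smul, if_pos h]

theorem rt_id {c : Tu I n →₀ k} (hc : c ∈ supported k k {ω | range ω ⊆ A}) : rt k R A n c = c :=
  eq_of (F' := LinearMap.id) (fun _ h => rt_single h) hc

theorem tb_in {ω : Tu I (n + 1)} (h : range ω ⊆ A) :
    tb k n (single ω 1) ∈ supported k k {ω | range ω ⊆ A} :=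
  tb_mem (P := fun s => s ⊆ A) (fun _ _ h h' => h.trans h') (single_mem_supported k 1 h)

theorem LkAc.rt_zero (H : LkAc k R A U) {ω : Tu I 0} (h : ω ∈ CU R U 0) :
    rt k R A 0 (single ω 1) ∈ supported k k (Car R A (range ω) 0) ∧ ta k (rt k R A 0 (single ω 1)) = 1 := by
  by_cases c : range ω ⊆ A
  · rw [rt_single c]; exact ⟨single_mem_supported k 1 (self_car ⟨c, h.2⟩), ta_single _⟩
  · rw [rt, linearCombination_single, one_smul, if_neg c, dif_pos (H.car h).1]
    exact ⟨single_mem_supported k 1 (H.car h).1.some_mem, ta_single _⟩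

theorem LkAc.ta_rt (H : LkAc k R A U) {c : Tu I 0 →₀ k} (hc : c ∈ supported k k (CU R U 0)) :
    ta k (rt k R A 0 c) = ta k c :=
  eq_of (F := ta k ∘ₗ rt k R A 0) (fun _ h => (H.rt_zero h).2.trans (ta_single _).symm) hc

theorem LkAc.rt_step (H : LkAc k R A U)
    (h1 : ∀ ω ∈ CU R U n, rt k R A n (single ω 1) ∈ supported k k (Car R A (range ω) n))
    (h2 : ∀ c ∈ supported k k (CU R U n), c ∈ rc (tb k) (ta k) n → rt k R A n c ∈ rc (tb k) (ta k) n)
    {ω : Tu I (n + 1)} (h : ω ∈ CU R U (n + 1)) :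
    rt k R A (n + 1) (single ω 1) ∈ supported k k (Car R A (range ω) (n + 1)) ∧
      tb k n (rt k R A (n + 1) (single ω 1)) = rt k R A n (tb k n (single ω 1)) := by
  by_cases c : range ω ⊆ A
  · rw [rt_single c, rt_id (tb_in c)]; exact ⟨single_mem_supported k 1 (self_car ⟨c, h.2⟩), rfl⟩
  · rw [rt, linearCombination_single, one_smul, if_neg c]
    exact pick_spec (N := fun ω => supported k k (Car R A (range ω) (n + 1))) ((H.car h).2 n _
      (tb_car h1 h) (h2 _ (tb_cu (single_mem_supported k 1 h)) (tb_rc _ _)))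

theorem LkAc.rt_ind (H : LkAc k R A U) (n : ℕ) :
    (∀ ω ∈ CU R U n, rt k R A n (single ω 1) ∈ supported k k (Car R A (range ω) n)) ∧
    ∀ c ∈ supported k k (CU R U n), c ∈ rc (tb k) (ta k) n → rt k R A n c ∈ rc (tb k) (ta k) n := by
  induction n with
  | zero => exact ⟨fun _ h => (H.rt_zero h).1, fun c hc h0 => (H.ta_rt hc).trans h0⟩
  | succ n ih =>
    refine ⟨fun _ h => (H.rt_step ih.1 ih.2 h).1, fun c hc h0 => ?_⟩
    have e : tb k n (rt k R A (n + 1) c) = rt k R A n (tb k n c) :=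
      eq_of (F := tb k n ∘ₗ rt k R A (n + 1)) (F' := rt k R A n ∘ₗ tb k n)
        (fun _ h => (H.rt_step ih.1 ih.2 h).2) hc
    change tb k n _ = 0
    rw [e, show tb k n c = 0 from h0, map_zero]

/-- the retraction is local -/
theorem LkAc.rt_car (H : LkAc k R A U) {ω : Tu I n} (h : ω ∈ CU R U n) :
    rt k R A n (single ω 1) ∈ supported k k (Car R A (range ω) n) := (H.rt_ind n).1 ω h

theorem LkAc.rt_mem (H : LkAc k R A U) {c : Tu I n →₀ k} (hc : c ∈ supported k k (CU R U n)) :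
    rt k R A n c ∈ supported k k (CU R A n) :=
  mem_of (fun _ h => supported_mono (Car.sub n) (H.rt_car h)) hc

/-- the retraction is a chain map -/
theorem LkAc.tb_rt (H : LkAc k R A U) {c : Tu I (n + 1) →₀ k} (hc : c ∈ supported k k (CU R U (n + 1))) :
    tb k n (rt k R A (n + 1) c) = rt k R A n (tb k n c) :=
  eq_of (F := tb k n ∘ₗ rt k R A (n + 1)) (F' := rt k R A n ∘ₗ tb k n)
    (fun _ h => (H.rt_step (H.rt_ind n).1 (H.rt_ind n).2 h).2) hc

variable (k R A U) in
open Classical in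
/-- the homotopy -/
def ho : ∀ n, (Tu I n →₀ k) →ₗ[k] (Tu I (n + 1) →₀ k)
  | 0 => linearCombination k fun ω => if range ω ⊆ A then 0 else
      pick (tb k 0) (LinearMap.id - rt k R A 0) (fun ω => supported k k (Car R U (range ω) 1)) (single ω 1)
  | n + 1 => linearCombination k fun ω => if range ω ⊆ A then 0 else
      pick (tb k (n + 1)) (LinearMap.id - rt k R A (n + 1) - ho n ∘ₗ tb k n)
        (fun ω => supported k k (Car R U (range ω) (n + 2))) (single ω 1)

variable (k R A U) in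
/-- what the homotopy has to fill -/
def hz : ∀ n, (Tu I n →₀ k) →ₗ[k] (Tu I n →₀ k)
  | 0 => LinearMap.id - rt k R A 0
  | n + 1 => LinearMap.id - rt k R A (n + 1) - ho k R A U n ∘ₗ tb k n

theorem ho_single {ω : Tu I n} (h : range ω ⊆ A) : ho k R A U n (single ω 1) = 0 := by
  cases n <;> rw [ho, linearCombination_single, one_smul, if_pos h]

theorem ho_zero {c : Tu I n →₀ k} (hc : c ∈ supported k k {ω | range ω ⊆ A}) : ho k R A U n c = 0 :=
  eq_of (F' := 0) (fun _ h => ho_single h) hc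

theorem ho_step (h1 : ∀ ω ∈ CU R U n, hz k R A U n (single ω 1) ∈ supported k k (Car R U (range ω) n) ∧
      hz k R A U n (single ω 1) ∈ rc (tb k) (ta k) n) {ω : Tu I n} (h : ω ∈ CU R U n) :
    ho k R A U n (single ω 1) ∈ supported k k (Car R U (range ω) (n + 1)) ∧
      tb k n (ho k R A U n (single ω 1)) = hz k R A U n (single ω 1) := by
  by_cases c : range ω ⊆ A
  · rw [ho_single c, map_zero]
    refine ⟨Submodule.zero_mem _, ?_⟩
    cases n with
    | zero => simp [hz, rt_single c]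
    | succ n => simp [hz, rt_single c, ho_zero (tb_in c)]
  · have := ((lkAc_self (k := k)).car h).2 n _ (h1 ω h).1 (h1 ω h).2
    cases n <;> rw [ho, linearCombination_single, one_smul, if_neg c] <;>
      exact pick_spec (N := fun ω => supported k k (Car R U (range ω) _)) this

theorem LkAc.hz_ind (H : LkAc k R A U) (hA : A ⊆ U) (n : ℕ) : ∀ ω ∈ CU R U n,
    hz k R A U n (single ω 1) ∈ supported k k (Car R U (range ω) n) ∧
      hz k R A U n (single ω 1) ∈ rc (tb k) (ta k) n := by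
  have b : ∀ n, ∀ ω ∈ CU R U n,
      single ω 1 - rt k R A n (single ω 1) ∈ supported k k (Car R U (range ω) n) := fun n ω h =>
    Submodule.sub_mem _ (single_mem_supported k 1 (self_car h))
      (supported_mono (Car.mono Subset.rfl hA n) (H.rt_car h))
  induction n with
  | zero =>
    refine fun ω h => ⟨b 0 ω h, ?_⟩
    change ta k (single ω 1 - rt k R A 0 (single ω 1)) = 0
    rw [map_sub, H.ta_rt (single_mem_supported k 1 h), sub_self]
  | succ n ih =>
    refine fun ω h => ⟨Submodule.sub_mem _ (b _ ω h) (tb_car (fun _ h => (ho_step ih h).1) h), ?_⟩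
    have hs := single_mem_supported k (1 : k) h
    have e : tb k n (ho k R A U n (tb k n (single ω 1))) = hz k R A U n (tb k n (single ω 1)) :=
      eq_of (F := tb k n ∘ₗ ho k R A U n) (fun _ h => (ho_step ih h).2) (tb_cu hs)
    have e0 : hz k R A U (n + 1) (single ω 1) =
        single ω 1 - rt k R A (n + 1) (single ω 1) - ho k R A U n (tb k n (single ω 1)) := rfl
    rw [e0]
    change tb k n _ = 0
    rw [map_sub, map_sub, H.tb_rt hs, e]
    cases n with
    | zero => exact sub_self _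
    | succ n =>
      rw [hz, LinearMap.sub_apply, LinearMap.sub_apply, LinearMap.comp_apply, tb_tb, map_zero, sub_zero]
      exact sub_self _

/-- the homotopy is local -/
theorem LkAc.ho_car (H : LkAc k R A U) (hA : A ⊆ U) {ω : Tu I n} (h : ω ∈ CU R U n) :
    ho k R A U n (single ω 1) ∈ supported k k (Car R U (range ω) (n + 1)) :=
  (ho_step (H.hz_ind hA n) h).1

theorem LkAc.ho_mem (H : LkAc k R A U) (hA : A ⊆ U) {c : Tu I n →₀ k}
    (hc : c ∈ supported k k (CU R U n)) : ho k R A U n c ∈ supported k k (CU R U (n + 1)) :=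
  mem_of (fun _ h => supported_mono (Car.sub _) (H.ho_car hA h)) hc

theorem LkAc.tb_ho (H : LkAc k R A U) (hA : A ⊆ U) {c : Tu I n →₀ k}
    (hc : c ∈ supported k k (CU R U n)) : tb k n (ho k R A U n c) = hz k R A U n c :=
  eq_of (F := tb k n ∘ₗ ho k R A U n) (fun _ h => (ho_step (H.hz_ind hA n) h).2) hc

theorem LkAc.tb_ho_zero (H : LkAc k R A U) (hA : A ⊆ U) {c : Tu I 0 →₀ k}
    (hc : c ∈ supported k k (CU R U 0)) : tb k 0 (ho k R A U 0 c) = c - rt k R A 0 c := H.tb_ho hA hc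

theorem LkAc.tb_ho_succ (H : LkAc k R A U) (hA : A ⊆ U) {c : Tu I (n + 1) →₀ k}
    (hc : c ∈ supported k k (CU R U (n + 1))) :
    tb k (n + 1) (ho k R A U (n + 1) c) = c - rt k R A (n + 1) c - ho k R A U n (tb k n c) :=
  H.tb_ho hA hc

theorem LkAc.tb_ho_rc (H : LkAc k R A U) (hA : A ⊆ U) {c : Tu I n →₀ k}
    (hc : c ∈ supported k k (CU R U n)) (h0 : c ∈ rc (tb k) (ta k) n) :
    tb k n (ho k R A U n c) = c - rt k R A n c := by
  cases n with
  | zero => exact H.tb_ho_zero hA hc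
  | succ n => rw [H.tb_ho_succ hA hc, show tb k n c = 0 from h0, map_zero, sub_zero]

/-- acyclicity passes from `A` to `U` -/
theorem LkAc.ac (H : LkAc k R A U) (hA : A ⊆ U) {Q : ∀ n, Set (Tu I n)} (hQ : ∀ n, CU R U n ⊆ Q n)
    (h : Ac (tb k) (ta k) (CU R A) Q) : Ac (tb k) (ta k) (CU R U) Q := fun n c hc h0 => by
  obtain ⟨b, hb, e⟩ := h n _ (H.rt_mem hc) ((H.rt_ind n).2 c hc h0)
  exact ⟨b + ho k R A U n c, Submodule.add_mem _ hb (supported_mono (hQ _) (H.ho_mem hA hc)), by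
    rw [map_add, e, H.tb_ho_rc hA hc h0, add_sub_cancel]⟩

/-- acyclicity passes from `U` to `A` -/
theorem LkAc.ac' (H : LkAc k R A U) (hA : A ⊆ U) (h : Ac (tb k) (ta k) (CU R U) (CU R U)) :
    Ac (tb k) (ta k) (CU R A) (CU R A) := fun n c hc h0 => by
  obtain ⟨b, hb, e⟩ := h n c (supported_mono (CU.mono hA n) hc) h0
  exact ⟨rt k R A (n + 1) b, H.rt_mem hb, by
    rw [H.tb_rt hb, e, rt_id (supported_mono (fun _ h => h.1) hc)]⟩

section co
variable {M : Type} [AddCommGroup M] [Module k M]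

variable (k) in
/-- the coboundary of a function on tuples -/
def cb (φ : Tu I n → M) (τ : Tu I (n + 1)) : M := ∑ i : Fin (n + 2), (-1 : k) ^ (i : ℕ) • φ (tf τ i)

theorem cb_eq (φ : Tu I n → M) (τ : Tu I (n + 1)) :
    cb k φ τ = linearCombination k φ (tb k n (single τ 1)) := by
  simp [cb, tb_single, map_sum]

theorem lc_cb (φ : Tu I n → M) (c : Tu I (n + 1) →₀ k) :
    linearCombination k (cb k φ) c = linearCombination k φ (tb k n c) :=
  eq_of (F' := linearCombination k φ ∘ₗ tb k n) (s := univ) (fun τ _ => by simp [cb_eq]) (by simp)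

theorem lc_congr {φ ψ : Tu I n → M} {s : Set (Tu I n)} (h : ∀ τ ∈ s, φ τ = ψ τ) {c : Tu I n →₀ k}
    (hc : c ∈ supported k k s) : linearCombination k φ c = linearCombination k ψ c :=
  eq_of (fun τ hτ => by simp [h τ hτ]) hc

theorem lc_tb_zero {φ : Tu I n → M} (h : ∀ τ ∈ CU R U (n + 1), cb k φ τ = 0) {c : Tu I (n + 1) →₀ k}
    (hc : c ∈ supported k k (CU R U (n + 1))) : linearCombination k φ (tb k n c) = 0 := by
  rw [← lc_cb, lc_congr (ψ := 0) h hc]; simp

/-- **extension of cocycles** from `A` to `U` -/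
theorem LkAc.ext (H : LkAc k R A U) {ψ : Tu I n → M} (h : ∀ τ ∈ CU R A (n + 1), cb k ψ τ = 0) :
    ∃ ψ' : Tu I n → M, (∀ τ ∈ CU R U (n + 1), cb k ψ' τ = 0) ∧ ∀ ω, range ω ⊆ A → ψ' ω = ψ ω := by
  have e : ∀ c, linearCombination k (fun ω => linearCombination k ψ (rt k R A n (single ω 1))) c =
      linearCombination k ψ (rt k R A n c) := fun c =>
    eq_of (F' := linearCombination k ψ ∘ₗ rt k R A n) (s := univ) (fun τ _ => by simp) (by simp)
  refine ⟨fun ω => linearCombination k ψ (rt k R A n (single ω 1)), fun τ hτ => ?_, fun ω hω => by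
    simp [rt_single hω]⟩
  have hs := single_mem_supported k (1 : k) hτ
  rw [cb_eq, e, ← H.tb_rt hs, lc_tb_zero h (H.rt_mem hs)]

/-- **extension of primitives** from `A` to `U` -/
theorem LkAc.exa (H : LkAc k R A U) (hA : A ⊆ U) {φ : Tu I (n + 1) → M}
    (h : ∀ τ ∈ CU R U (n + 2), cb k φ τ = 0) {η : Tu I n → M} (hη : ∀ τ ∈ CU R A (n + 1), φ τ = cb k η τ) :
    ∃ η' : Tu I n → M, (∀ τ ∈ CU R U (n + 1), φ τ = cb k η' τ) ∧ ∀ ω, range ω ⊆ A → η' ω = η ω := by
  let F := linearCombination k η ∘ₗ rt k R A n + linearCombination k φ ∘ₗ ho k R A U n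
  have e : ∀ c, linearCombination k (fun ω => F (single ω 1)) c = F c := fun c =>
    eq_of (s := univ) (fun τ _ => by simp) (by simp)
  refine ⟨fun ω => F (single ω 1), fun τ hτ => ?_, fun ω hω => by simp [F, rt_single hω, ho_single hω]⟩
  have hs := single_mem_supported k (1 : k) hτ
  have e1 := lc_tb_zero h (H.ho_mem hA hs)
  rw [H.tb_ho_succ hA hs, map_sub, map_sub, lc_congr hη (H.rt_mem hs), lc_cb, H.tb_rt hs] at e1
  rw [cb_eq, e]
  simp only [F, LinearMap.add_apply, LinearMap.comp_apply]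
  rw [linearCombination_single, one_smul, sub_sub, sub_eq_zero] at e1
  exact e1

/-- closed functions that are constant on `A` are constant on `U` -/
theorem LkAc.con (H : LkAc k R A U) (hA : A ⊆ U) {φ : Tu I 0 → M} (h : ∀ τ ∈ CU R U 1, cb k φ τ = 0)
    {x : M} (hx : ∀ ω ∈ CU R A 0, φ ω = x) : ∀ ω ∈ CU R U 0, φ ω = x := fun ω hω => by
  have hs := single_mem_supported k (1 : k) hω
  have e1 := lc_tb_zero h (H.ho_mem hA hs)
  have e2 : ∀ c, linearCombination k (fun _ : Tu I 0 => x) c = ta k c • x := fun c =>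
    eq_of (F' := (ta k).smulRight x) (s := univ) (fun τ _ => by simp [ta_single]) (by simp)
  rwa [H.tb_ho_zero hA hs, map_sub, lc_congr hx (H.rt_mem hs), e2, H.ta_rt hs, ta_single,
    linearCombination_single, one_smul, one_smul, sub_eq_zero] at e1

end co

/-- dismantlable sets -/
inductive Dism (R : I → I → Prop) : Set I → Prop
  | one (a : I) : Dism R {a}
  | step {B : Set I} {u v : I} : Dism R B → u ∈ B → R v u → (∀ x ∈ B, R v x → R u x) →
      Dism R (insert v B)

theorem Dism.ne {B : Set I} (h : Dism R B) : B.Nonempty := by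
  cases h <;> simp

theorem Dism.map {J : Type} {R' : J → J → Prop} {f : I → J} (hf : ∀ a b, R' (f a) (f b) ↔ R a b)
    {B : Set I} (h : Dism R B) : Dism R' (f '' B) := by
  induction h with
  | one a => rw [image_singleton]; exact .one _
  | step _ hu h1 h2 ih =>
    rw [image_insert_eq]
    exact ih.step (mem_image_of_mem f hu) ((hf _ _).2 h1) (by
      rintro _ ⟨x, hx, rfl⟩ h; exact (hf _ _).2 (h2 x hx ((hf _ _).1 h)))

/-- **dismantlable sets are acyclic** -/
theorem Dism.ac (hr : ∀ a, R a a) (hs : ∀ a b, R a b → R b a) {B : Set I} (h : Dism R B) :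
    Ac (tb k) (ta k) (CU R B) (CU R B) := by
  induction h with
  | one a =>
    refine ac_cone a fun n ω hω => ?_
    have e : range (Fin.cons a ω : Tu I (n + 1)) ⊆ {a} := by
      rw [Fin.range_cons]; exact insert_subset rfl hω.1
    exact ⟨e, fun x hx y hy => by rw [e hx, e hy]; exact hr a⟩
  | @step B u v _ hu h1 h2 ih =>
    refine LkAc.ac (fun s ⟨x, hx⟩ hU hd _ => ?_) (subset_insert v B) (fun _ => Subset.rfl)
      (ih.mono (fun _ => Subset.rfl) (CU.mono (subset_insert v B)))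
    have e : ∀ y ∈ (s : Set I), y = v := fun y hy => (hU hy).resolve_right (disjoint_left.1 hd hy)
    have q : ∀ t : Set I, t ⊆ B → Cq R (insert v t) → Cq R (insert v (insert u t)) := fun t ht hq => by
      have z : ∀ y ∈ insert v (insert u t), R u y := by
        rintro y (rfl | rfl | hy)
        exacts [hs _ _ h1, hr _, h2 y (ht hy) (hq _ (Or.inl rfl) _ (Or.inr hy))]
      rw [insert_comm] at z ⊢
      rintro a (rfl | ha) b hb
      · exact z b hb
      · rcases hb with rfl | hb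
        exacts [hs _ _ (z a (Or.inr ha)), hq a ha b hb]
    refine ⟨⟨fun _ => u, fun y hy => ⟨by rintro _ ⟨_, rfl⟩; exact hu, ?_⟩⟩,
      ac_cone u fun n ω hω y hy => ?_⟩
    · rw [e y hy]
      exact (q ∅ (empty_subset _) (by rintro _ (rfl | ⟨⟨⟩⟩) _ (rfl | ⟨⟨⟩⟩); exact hr _)).mono (by
        rintro _ (rfl | ⟨_, rfl⟩) <;> simp)
    · have h3 := hω y hy
      rw [e y hy] at h3 ⊢
      change range _ ⊆ B ∧ Cq R (insert v (range _))
      rw [Fin.range_cons]
      exact ⟨insert_subset hu h3.1, q _ h3.1 h3.2⟩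

theorem it_sa (hr : ∀ a, R a a) (hs : ∀ a b, R a b → R b a) {s : Set I} (hne : s.Nonempty) (n : ℕ) :
    It (SA R A) s n = CU R {a ∈ A | ∀ b ∈ s, R b a} n := by
  obtain ⟨x, hx⟩ := hne
  ext ω
  refine ⟨fun h => ⟨fun a ha => ⟨(h x hx).1 ha, fun b hb => (h b hb).2 _ (Or.inl rfl) _ (Or.inr ha)⟩,
    (h x hx).2.mono (subset_insert _ _)⟩, fun h b hb => ⟨fun a ha => (h.1 ha).1, ?_⟩⟩
  rintro a (rfl | ha) c (rfl | hc)
  exacts [hr _, (h.1 hc).2 _ hb, hs _ _ ((h.1 ha).2 _ hb), h.2 a ha c hc]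

/-- **dismantlable links** -/
theorem lkAc_of_dism (hr : ∀ a, R a a) (hs : ∀ a b, R a b → R b a)
    (h : ∀ s : Finset I, s.Nonempty → ↑s ⊆ U → Disjoint (s : Set I) A → Cq R ↑s →
      Dism R {a ∈ A | ∀ b ∈ s, R b a}) : LkAc k R A U := fun s hne h1 h2 h3 => by
  have e : It (SA R A) s = CU R {a ∈ A | ∀ b ∈ s, R b a} := funext (it_sa hr hs hne)
  rw [e]
  obtain ⟨a, ha⟩ := (h s hne h1 h2 h3).ne
  exact ⟨⟨fun _ => a, by rintro _ ⟨_, rfl⟩; exact ha, by rintro _ ⟨_, rfl⟩ _ ⟨_, rfl⟩; exact hr _⟩,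
    (h s hne h1 h2 h3).ac hr hs⟩

end Crest.Agent.N255.Nv

end
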