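import Crest.Agent.N255.Nv.Ctg
import Crest.Agent.N255.Cs.Sing

/-!
# Row 255 (helper2): connections given by labels
-/

set_option autoImplicit false
open Set Finsupp

noncomputable section

namespace Crest.Agent.N255.Nv

open Crest.Agent.N255.Tp Crest.Agent.N255.Cs

variable {I : Type} {X Y : Type} [TopologicalSpace X] [TopologicalSpace Y] {n : ℕ}

theorem vl_e1 (l : X → I) (σ : Sx n X) (a : Fin (n + 1)) : vl l (e1 σ a) = ![vl l σ a] := by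
  rw [e1, vl_sub]; funext t; fin_cases t; rfl

theorem vl_e2 (l : X → I) (σ : Sx n X) (a b : Fin (n + 1)) :
    vl l (e2 σ a b) = ![vl l σ a, vl l σ b] := by
  rw [e2, vl_sub]; funext t; fin_cases t <;> rfl

theorem vl_e3 (l : X → I) (σ : Sx n X) (a b c : Fin (n + 1)) :
    vl l (e3 σ a b c) = ![vl l σ a, vl l σ b, vl l σ c] := by
  rw [e3, vl_sub]; funext t; fin_cases t <;> rfl

/-- a function of two labels as a function on edges -/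
def lg {B : Type} (l : X → I) (Γ : I → I → B) : Sx 1 X → B := fun σ => Γ (vl l σ 0) (vl l σ 1)

/-- a function of one label as a function on points -/
def l0 {B : Type} (l : X → I) (γ : I → B) : Sx 0 X → B := fun σ => γ (vl l σ 0)

/-- a function of two labels as a cochain on tuples -/
def t2 {B : Type} (Γ : I → I → B) : Tu I 1 → B := fun τ => Γ (τ 0) (τ 1)

theorem lg_eq_rs {B : Type} (l : X → I) (Γ : I → I → B) : lg l Γ = rs l (t2 Γ) := rfl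

theorem lg_e2 {B : Type} (l : X → I) (Γ : I → I → B) (σ : Sx n X) (a b : Fin (n + 1)) :
    lg l Γ (e2 σ a b) = Γ (vl l σ a) (vl l σ b) := by rw [lg, vl_e2]; rfl

theorem l0_e1 {B : Type} (l : X → I) (γ : I → B) (σ : Sx n X) (a : Fin (n + 1)) :
    l0 l γ (e1 σ a) = γ (vl l σ a) := by rw [l0, vl_e1]; rfl

theorem lg_comp {B : Type} (l : Y → I) (Γ : I → I → B) (φ : C(X, Y)) (σ : Sx 1 X) :
    lg l Γ (φ.comp σ) = lg (l ∘ φ) Γ σ := rfl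

theorem td_t2 {k A : Type} [CommRing k] [AddCommGroup A] [Module k A] (Γ : I → I → A) (τ : Tu I 2) :
    td k (t2 Γ) τ = d1 Γ (τ 0) (τ 1) (τ 2) := by rw [td1]; rfl

theorem cob_lg {k A : Type} [CommRing k] [AddCommGroup A] [Module k A] (l : X → I) (Γ : I → I → A)
    (σ : Sx 2 X) : cob k (lg l Γ) σ = d1 Γ (vl l σ 0) (vl l σ 1) (vl l σ 2) := by
  rw [lg_eq_rs, cob_rs, rs, td_t2]

section ring
variable {R : Type} [Ring R]

theorem gs_lg (l : X → I) (Γ : I → I → Rˣ) (σ : Sx n X) :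
    gs (lg l Γ) σ = fun a b => Γ (vl l σ a) (vl l σ b) := by
  funext a b; exact lg_e2 l Γ σ a b

theorem cur_lg (l : X → I) (Γ : I → I → Rˣ) (σ : Sx 2 X) :
    cur (lg l Γ) σ = Cs.fc Γ (vl l σ 0) (vl l σ 1) (vl l σ 2) := by rw [cur, gs_lg]; rfl

theorem dif_lg (l : X → I) (Γ' Γ : I → I → Rˣ) : dif (lg l Γ') (lg l Γ) = lg l (df Γ' Γ) := rfl

theorem gag_lg (l : X → I) (γ : I → Rˣ) (Γ : I → I → Rˣ) :
    gag (l0 l γ) (lg l Γ) = lg l (gau γ Γ) := by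
  funext σ
  simp only [gag, l0_e1]; rfl

/-- on contiguous labels a flat family is changed by a gauge transformation -/
theorem gag_ctg (l l' : X → I) (Γ : I → I → Rˣ) (σ : Sx 1 X)
    (h1 : Cs.fc Γ (vl l σ 0) (vl l' σ 0) (vl l' σ 1) = 0)
    (h2 : Cs.fc Γ (vl l σ 0) (vl l σ 1) (vl l' σ 1) = 0) :
    gag (fun x => Γ (vl l x 0) (vl l' x 0)) (lg l' Γ) σ = lg l Γ σ := by
  simp only [gag, vl_e1, lg]
  rw [mul_inv_eq_iff_eq_mul]
  refine Units.ext ?_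
  rw [Cs.fc, sub_eq_zero] at h1 h2
  exact h1.trans h2.symm

end ring

variable {p : ℕ} [hpp : Fact p.Prime] {K O : Type} [CommRing K] [CommRing O] [Algebra K O]
  {G : Gr (Gm p) K O} {P : Sb X} {m J : Ideal O} {R : I → I → Prop} {M : Set I} {l : X → I}

theorem CT.pair {τ : Tu I n} (h : τ ∈ CT R M n) (a b : Fin (n + 1)) :
    τ a ∈ M ∧ τ b ∈ M ∧ R (τ a) (τ b) :=
  ⟨h.1 ⟨a, rfl⟩, h.1 ⟨b, rfl⟩, h.2 _ ⟨a, rfl⟩ _ ⟨b, rfl⟩⟩

theorem CU_lg {hm : G.Id m} (hl : ∀ σ ∈ P.S 1, vl l σ ∈ CT R M 1) {Γ : I → I → (Tw G)ˣ}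
    (h : ∀ a ∈ M, ∀ b ∈ M, R a b → Γ a b ∈ Tw.U hm) : CU P hm (lg l Γ) := fun σ hσ =>
  let ⟨a, b, c⟩ := CT.pair (hl σ hσ) 0 1; h _ a _ b c

theorem CI_lg (hl : ∀ σ ∈ P.S 1, vl l σ ∈ CT R M 1) {Γ : I → I → Tw G}
    (h : ∀ a ∈ M, ∀ b ∈ M, R a b → In J (Γ a b)) : CI P J (lg l Γ) := fun σ hσ =>
  let ⟨a, b, c⟩ := CT.pair (hl σ hσ) 0 1; h _ a _ b c

theorem CI_cur_lg (hl : ∀ σ ∈ P.S 2, vl l σ ∈ CT R M 2) {Γ : I → I → (Tw G)ˣ}
    (h : ∀ a ∈ M, ∀ b ∈ M, ∀ c ∈ M, R a b → R b c → R a c → In J (Cs.fc Γ a b c)) :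
    CI P J (cur (lg l Γ)) := fun σ hσ => by
  rw [cur_lg]
  have := CT.pair (hl σ hσ)
  exact h _ (this 0 1).1 _ (this 1 2).1 _ (this 1 2).2.1 (this 0 1).2.2
    (this 1 2).2.2 (this 0 2).2.2

theorem CI_rs {s : Set (Tu I n)} (hl : ∀ σ ∈ P.S n, vl l σ ∈ s) {ψ : Tu I n → Tw G}
    (h : ∀ τ ∈ s, In J (ψ τ)) : CI P J (rs l ψ) := fun σ hσ => h _ (hl σ hσ)

variable [Fact ((p : O) = 0)]

theorem CS_lg (l : X → I) (Γ : I → I → (Tw G)ˣ) :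
    CS (lg l Γ) = rs l fun τ : Tu I 3 => (Cs.td G).cs Γ (τ 0) (τ 1) (τ 2) (τ 3) := by
  funext σ; rw [CS, gs_lg]; rfl

theorem BE_lg (l : X → I) (Γ : I → I → (Tw G)ˣ) (h : I → I → Tw G) :
    BE (lg l Γ) (lg l h) = rs l fun τ : Tu I 2 => (Cs.td G).be Γ h (τ 0) (τ 1) (τ 2) := by
  funext σ; simp only [BE, gs_lg, lg_e2]; rfl

theorem BK_lg (l : X → I) (Γ' Γ : I → I → (Tw G)ˣ) :
    BK (lg l Γ') (lg l Γ) = rs l fun τ : Tu I 2 => Cs.bk Γ' Γ (τ 0) (τ 1) (τ 2) := by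
  funext σ; simp only [BK, gs_lg]; rfl

omit [Fact ((p : O) = 0)] in
theorem mp_lg {O' : Type} [CommRing O'] [Algebra K O'] {G' : Gr (Gm p) K O'} {φ : O →ₐ[K] O'}
    (h : G.Hom G' φ) (l : X → I) (Γ : I → I → (Tw G)ˣ) :
    mp h (lg l Γ) = lg l fun a b => um h (Γ a b) := rfl

end Crest.Agent.N255.Nv

end
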