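import Crest.Agent.N255.Tp.Basic

/-!
# Row 255, block D (helper58): unions of pro-acyclic families, ordered tuples
-/

set_option autoImplicit false
open Set Finsupp

noncomputable section

namespace Crest.Agent.N255.Nv

open Crest.Agent.N255.Tp

variable {k : Type} [CommRing k] {I : Type}

section abs
variable {B : ℕ → Type} (d : ∀ n, (B (n + 1) →₀ k) →ₗ[k] (B n →₀ k)) (ε : (B 0 →₀ k) →ₗ[k] k)

/-- reduced cycles -/
def rc : ∀ n, Submodule k (B n →₀ k)
  | 0 => LinearMap.ker ε
  | n + 1 => LinearMap.ker (d n)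

/-- reduced cycles on `P` bound on `Q` -/
def Ac (P Q : ∀ n, Set (B n)) : Prop :=
  ∀ n, ∀ c ∈ supported k k (P n), c ∈ rc d ε n → ∃ b ∈ supported k k (Q (n + 1)), d n b = c

/-- closed under the boundary -/
def Cl (P : ∀ n, Set (B n)) : Prop :=
  ∀ n, ∀ c ∈ supported k k (P (n + 1)), d n c ∈ supported k k (P n)

variable {d ε}

theorem Ac.mono {P Q P' Q' : ∀ n, Set (B n)} (h : Ac d ε P Q) (hP : ∀ n, P' n ⊆ P n)
    (hQ : ∀ n, Q n ⊆ Q' n) : Ac d ε P' Q' := fun n c hc h0 => by
  obtain ⟨b, hb, e⟩ := h n c (supported_mono (hP n) hc) h0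
  exact ⟨b, supported_mono (hQ _) hb, e⟩

theorem Ac.union {P₁ P₂ Q₁ Q₂ R : ∀ n, Set (B n)} (c₁ : Cl d P₁) (c₂ : Cl d P₂)
    (hdd : ∀ n c, d n c ∈ rc d ε n) (l₁ : ∀ n, P₁ n ⊆ Q₁ n) (l₂ : ∀ n, P₂ n ⊆ Q₂ n)
    (h : Ac d ε (fun n => P₁ n ∩ P₂ n) fun n => Q₁ n ∩ Q₂ n) (h₁ : Ac d ε Q₁ R) (h₂ : Ac d ε Q₂ R)
    (hp : ∃ p ∈ Q₁ 0 ∩ Q₂ 0, ε (single p 1) = 1) : Ac d ε (fun n => P₁ n ∪ P₂ n) R := by
  intro n c hc h0
  rw [supported_union] at hc
  obtain ⟨a, ha, b, hb, rfl⟩ := Submodule.mem_sup.1 hc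
  have key : ∃ e ∈ supported k k (Q₁ n ∩ Q₂ n), a - e ∈ rc d ε n := by
    cases n with
    | zero =>
      obtain ⟨p, hp, e⟩ := hp
      refine ⟨ε a • single p 1, Submodule.smul_mem _ _ (single_mem_supported k 1 hp), ?_⟩
      change ε _ = 0
      rw [map_sub, map_smul, e, smul_eq_mul, mul_one, sub_self]
    | succ n =>
      have e0 : d n a = -d n b := by
        have : d n (a + b) = 0 := h0
        rwa [map_add, add_eq_zero_iff_eq_neg] at this
      obtain ⟨e, he, e1⟩ := h n (d n a) (by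
        rw [supported_inter]
        exact ⟨c₁ n a ha, e0 ▸ Submodule.neg_mem _ (c₂ n b hb)⟩) (hdd n a)
      exact ⟨e, he, show d n _ = 0 by rw [map_sub, e1, sub_self]⟩
  obtain ⟨e, he, e1⟩ := key
  rw [supported_inter] at he
  obtain ⟨x, hx, e2⟩ := h₁ n _ (Submodule.sub_mem _ (supported_mono (l₁ n) ha) he.1) e1
  obtain ⟨y, hy, e3⟩ := h₂ n (b + e) (Submodule.add_mem _ (supported_mono (l₂ n) hb) he.2) (by
    have := Submodule.sub_mem _ h0 e1
    rwa [show a + b - (a - e) = b + e by abel] at this)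
  exact ⟨x + y, Submodule.add_mem _ hx hy, by rw [map_add, e2, e3]; abel⟩

theorem cl_of {P : ∀ n, Set (B n)} (h : ∀ n, ∀ b ∈ P (n + 1), d n (single b 1) ∈ supported k k (P n)) :
    Cl d P := fun n c hc => by
  rw [supported_eq_span_single] at hc
  exact (Submodule.span_le (p := (supported k k (P n)).comap (d n))).2
    (by rintro _ ⟨a, ha, rfl⟩; exact h n a ha) hc

/-- cliques -/
def Cq (R : I → I → Prop) (s : Set I) : Prop := ∀ a ∈ s, ∀ b ∈ s, R a b

theorem Cq.mono {R : I → I → Prop} {s t : Set I} (h : Cq R t) (hs : s ⊆ t) : Cq R s :=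
  fun a ha b hb => h a (hs ha) b (hs hb)

/-- in all sets of `s` -/
def It (S : I → ∀ n, Set (B n)) (s : Set I) (n : ℕ) : Set (B n) := {b | ∀ a ∈ s, b ∈ S a n}

/-- in all sets of `s` and in one set of `t` -/
def Un (S : I → ∀ n, Set (B n)) (s t : Set I) (n : ℕ) : Set (B n) :=
  {b | (∀ a ∈ s, b ∈ S a n) ∧ ∃ a ∈ t, b ∈ S a n}

theorem cl_it {S : I → ∀ n, Set (B n)} (h : ∀ a, Cl d (S a)) (s : Set I) : Cl d (It S s) :=
  cl_of fun n b hb => (mem_supported k _).2 fun x hx a ha =>
    (mem_supported k _).1 (h a n _ (single_mem_supported k 1 (hb a ha))) hx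

theorem cl_un {S : I → ∀ n, Set (B n)} (h : ∀ a, Cl d (S a)) (s t : Set I) : Cl d (Un S s t) :=
  cl_of fun n b hb => (mem_supported k _).2 fun x hx =>
    ⟨fun a ha => (mem_supported k _).1 (h a n _ (single_mem_supported k 1 (hb.1 a ha))) hx,
      hb.2.imp fun a ha => ⟨ha.1, (mem_supported k _).1 (h a n _ (single_mem_supported k 1 ha.2)) hx⟩⟩

/-- **unions over cliques of a pro-acyclic system are pro-acyclic** -/
theorem ac_un {R : I → I → Prop} {S : ℕ → I → ∀ n, Set (B n)} (hdd : ∀ n c, d n c ∈ rc d ε n)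
    (hc : ∀ r a, Cl d (S r a)) (hm : ∀ r r', r ≤ r' → ∀ a n, S r' a n ⊆ S r a n)
    (hp : ∀ r (s : Finset I), s.Nonempty → Cq R s → ∃ p ∈ It (S r) s 0, ε (single p 1) = 1)
    (ha : ∀ r, ∃ r', ∀ s : Finset I, s.Nonempty → Cq R s → Ac d ε (It (S r') s) (It (S r) s))
    (m : ℕ) : ∀ r, ∃ r', r ≤ r' ∧ ∀ s t : Finset I, t.Nonempty → t.card ≤ m → Cq R (s ∪ t) →
      Ac d ε (Un (S r') s t) (Un (S r) s t) := by
  classical
  have mU : ∀ r r', r ≤ r' → ∀ s t n, Un (S r') s t n ⊆ Un (S r) s t n := fun r r' h s t n b hb =>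
    ⟨fun a ha => hm r r' h a n (hb.1 a ha), hb.2.imp fun a ha => ⟨ha.1, hm r r' h a n ha.2⟩⟩
  have mI : ∀ r r', r ≤ r' → ∀ s n, It (S r') s n ⊆ It (S r) s n := fun r r' h s n b hb a ha =>
    hm r r' h a n (hb a ha)
  induction m with
  | zero => exact fun r => ⟨r, le_rfl, fun s t ht h => absurd (Finset.card_pos.2 ht) (by omega)⟩
  | succ m ih =>
    intro r
    obtain ⟨r1, h1⟩ := ha r
    obtain ⟨r2, l2, h2⟩ := ih r
    obtain ⟨r3, l3, h3⟩ := ih (max r1 r2)
    refine ⟨r3, l2.trans ((le_max_right _ _).trans l3), fun s t ht hcard hq => ?_⟩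
    obtain ⟨a, hat⟩ := ht
    have q1 : Cq R (insert a s : Finset I) := hq.mono (by
      rw [Finset.coe_insert]; exact insert_subset (Or.inr hat) subset_union_left)
    have A1 : Ac d ε (It (S (max r1 r2)) (insert a s : Finset I)) (Un (S r) s t) :=
      (h1 _ (Finset.insert_nonempty a s) q1).mono (mI _ _ (le_max_left _ _) _) fun n b hb =>
        ⟨fun x hx => hb x (by simp [show x ∈ s from hx]), a, hat, hb a (by simp)⟩
    rcases (t.erase a).eq_empty_or_nonempty with e | hne
    · refine A1.mono (fun n b hb => mI _ _ l3 _ _ fun x hx => ?_) fun _ => Subset.rfl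
      rcases Finset.mem_insert.1 hx with rfl | hx
      · obtain ⟨y, hy, hb⟩ := hb.2
        by_cases e' : y = x
        · exact e' ▸ hb
        · exact absurd (e ▸ Finset.mem_erase.2 ⟨e', hy⟩) (Finset.notMem_empty y)
      · exact hb.1 x hx
    · have hc' : (t.erase a).card ≤ m := by rw [Finset.card_erase_of_mem hat]; omega
      have q2 : Cq R ((insert a s : Finset I) ∪ (t.erase a : Finset I)) := hq.mono (by
        rw [Finset.coe_insert]
        exact union_subset (insert_subset (Or.inr hat) subset_union_left)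
          fun x hx => Or.inr (Finset.mem_of_mem_erase hx))
      have q3 : Cq R (s ∪ (t.erase a : Finset I)) :=
        q2.mono (union_subset_union_left _ (by simp))
      have A2 : Ac d ε (Un (S (max r1 r2)) s (t.erase a : Finset I)) (Un (S r) s t) :=
        (h2 s _ hne hc' q3).mono (mU _ _ (le_max_right _ _) _ _) fun n b hb =>
          ⟨hb.1, hb.2.imp fun x hx => ⟨Finset.mem_of_mem_erase hx.1, hx.2⟩⟩
      have A3 := Ac.union (P₁ := It (S r3) (insert a s : Finset I))
        (P₂ := Un (S r3) s (t.erase a : Finset I)) (cl_it (hc r3) _) (cl_un (hc r3) _ _) hdd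
        (mI _ _ l3 _) (mU _ _ l3 _ _) ((h3 _ _ hne hc' q2).mono (fun n b hb => ⟨hb.1, hb.2.2⟩)
          fun n b hb => ⟨hb.1, fun x hx => hb.1 x (by simp [show x ∈ s from hx]), hb.2⟩) A1 A2 (by
          obtain ⟨y, hy⟩ := hne
          obtain ⟨p, hp1, hp2⟩ := hp (max r1 r2) (insert y (insert a s)) (Finset.insert_nonempty _ _)
            (q2.mono (by
              rw [Finset.coe_insert]; exact insert_subset (Or.inr hy) subset_union_left))
          exact ⟨p, ⟨fun x hx => hp1 x (Finset.mem_insert_of_mem hx),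
            fun x hx => hp1 x (by simp [show x ∈ s from hx]), y, hy, hp1 y (by simp)⟩, hp2⟩)
      refine A3.mono (fun n b hb => ?_) fun _ => Subset.rfl
      obtain ⟨y, hy, hb'⟩ := hb.2
      by_cases e' : y = a
      · refine Or.inl fun x hx => ?_
        rcases Finset.mem_insert.1 hx with rfl | hx
        · exact e' ▸ hb'
        · exact hb.1 x hx
      · exact Or.inr ⟨hb.1, y, Finset.mem_erase.2 ⟨e', hy⟩, hb'⟩

end abs

section pick
variable {A M M' : Type} [AddCommGroup M] [Module k M] [AddCommGroup M'] [Module k M']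

open Classical in
/-- a choice of fillings -/
def pick (d : M' →ₗ[k] M) (z : (A →₀ k) →ₗ[k] M) (N : A → Submodule k M') : (A →₀ k) →ₗ[k] M' :=
  linearCombination k fun a => if h : ∃ b ∈ N a, d b = z (single a 1) then h.choose else 0

theorem pick_spec {d : M' →ₗ[k] M} {z : (A →₀ k) →ₗ[k] M} {N : A → Submodule k M'} {a : A}
    (h : ∃ b ∈ N a, d b = z (single a 1)) :
    pick d z N (single a 1) ∈ N a ∧ d (pick d z N (single a 1)) = z (single a 1) := by
  rw [pick, linearCombination_single, one_smul, dif_pos h]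
  exact h.choose_spec

theorem mem_of {F : (A →₀ k) →ₗ[k] M} {s : Set A} {N : Submodule k M}
    (h : ∀ a ∈ s, F (single a 1) ∈ N) {c : A →₀ k} (hc : c ∈ supported k k s) : F c ∈ N := by
  rw [supported_eq_span_single] at hc
  exact (Submodule.span_le (p := N.comap F)).2 (by rintro _ ⟨a, ha, rfl⟩; exact h a ha) hc

theorem eq_of {F F' : (A →₀ k) →ₗ[k] M} {s : Set A}
    (h : ∀ a ∈ s, F (single a 1) = F' (single a 1)) {c : A →₀ k} (hc : c ∈ supported k k s) :
    F c = F' c :=
  sub_eq_zero.1 (mem_of (F := F - F') (N := ⊥) (fun a ha => by simp [h a ha]) hc)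

end pick

/-- ordered tuples -/
abbrev Tu (I : Type) (n : ℕ) : Type := Fin (n + 1) → I

/-- faces of tuples -/
def tf {n : ℕ} (τ : Tu I (n + 1)) (i : Fin (n + 2)) : Tu I n := fun j => τ (i.succAbove j)

variable (k) in
/-- boundary of ordered chains -/
def tb (n : ℕ) : (Tu I (n + 1) →₀ k) →ₗ[k] (Tu I n →₀ k) :=
  linearCombination k fun τ => ∑ i : Fin (n + 2), (-1 : k) ^ (i : ℕ) • single (tf τ i) 1

variable (k) in
/-- augmentation -/
def ta : (Tu I 0 →₀ k) →ₗ[k] k := linearCombination k fun _ => 1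

variable {n : ℕ}

theorem tb_single (τ : Tu I (n + 1)) :
    tb k n (single τ 1) = ∑ i : Fin (n + 2), (-1 : k) ^ (i : ℕ) • single (tf τ i) 1 := by
  rw [tb, linearCombination_single, one_smul]

theorem ta_single (τ : Tu I 0) : ta k (single τ 1) = 1 := by simp [ta]

theorem range_tf (τ : Tu I (n + 1)) (i : Fin (n + 2)) : range (tf τ i) ⊆ range τ := by
  rintro _ ⟨j, rfl⟩; exact ⟨_, rfl⟩

theorem tb_mem {P : Set I → Prop} (hP : ∀ s t, s ⊆ t → P t → P s) {c : Tu I (n + 1) →₀ k}
    (hc : c ∈ supported k k {τ | P (range τ)}) : tb k n c ∈ supported k k {τ | P (range τ)} :=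
  mem_of (fun τ hτ => by
    rw [tb_single]
    exact Submodule.sum_mem _ fun i _ => Submodule.smul_mem _ _
      (single_mem_supported k 1 (hP _ _ (range_tf τ i) hτ))) hc

section lb
variable {X : Type} [TopologicalSpace X]

/-- the labels of the vertices -/
def vl (l : X → I) (σ : Sx n X) : Tu I n := fun i => l (σ (stdSimplex.vertex i))

theorem vl_fc (l : X → I) (σ : Sx (n + 1) X) (i : Fin (n + 2)) : vl l (fc σ i) = tf (vl l σ) i := by
  funext j
  change l (σ (stdSimplex.map i.succAbove (stdSimplex.vertex j))) = _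
  rw [stdSimplex.map_vertex]; rfl

variable (k) in
/-- the chain map given by labels -/
def lb (l : X → I) (n : ℕ) : Ch k n X →ₗ[k] (Tu I n →₀ k) := lmapDomain k k (vl l)

theorem lb_sg (l : X → I) (σ : Sx n X) : lb k l n (sg k σ) = single (vl l σ) 1 := by simp [lb]

theorem tb_lb (l : X → I) (c : Ch k (n + 1) X) : tb k n (lb k l (n + 1) c) = lb k l n (bd k c) :=
  ch_ext' (S := tb k n ∘ₗ lb k l (n + 1)) (T := lb k l n ∘ₗ bd k) (fun σ => by
    simp only [LinearMap.comp_apply, lb_sg, tb_single, bd_sg, map_sum, map_smul, vl_fc]) c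

theorem ta_lb (l : X → I) (c : Ch k 0 X) : ta k (lb k l 0 c) = aug k c :=
  ch_ext' (S := ta k ∘ₗ lb k l 0) (T := aug k) (fun σ => by
    simp only [LinearMap.comp_apply, lb_sg, ta_single, aug_sg]) c

end lb

theorem exists_sx (τ : Tu I n) : ∃ σ : @Sx n I ⊤, @vl I n I ⊤ id σ = τ := by
  classical
  letI : TopologicalSpace I := ⊤
  refine ⟨⟨fun t => if h : ∃ i, t = stdSimplex.vertex i then τ h.choose else τ 0, continuous_top⟩, ?_⟩
  funext i
  have h : ∃ j, (stdSimplex.vertex i : Dn n) = stdSimplex.vertex j := ⟨i, rfl⟩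
  change (if h : _ then _ else _) = _
  rw [dif_pos h, ← stdSimplex.vertex_injective h.choose_spec]

theorem tb_tb (c : Tu I (n + 2) →₀ k) : tb k n (tb k (n + 1) c) = 0 := by
  letI : TopologicalSpace I := ⊤
  have : tb k n ∘ₗ tb k (n + 1) = (0 : (Tu I (n + 2) →₀ k) →ₗ[k] _) :=
    lhom_ext' fun τ => LinearMap.ext_ring (by
      obtain ⟨σ, rfl⟩ := exists_sx τ
      simp only [LinearMap.comp_apply, lsingle_apply, LinearMap.zero_apply]
      rw [← lb_sg, tb_lb, tb_lb, bd_bd, map_zero])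
  exact LinearMap.congr_fun this c

theorem ta_tb (c : Tu I 1 →₀ k) : ta k (tb k 0 c) = 0 := by
  have : ta k ∘ₗ tb k 0 = (0 : (Tu I 1 →₀ k) →ₗ[k] _) :=
    lhom_ext' fun τ => LinearMap.ext_ring (by
      simp only [LinearMap.comp_apply, lsingle_apply, LinearMap.zero_apply]
      rw [tb_single, map_sum]
      simp only [map_smul, ta_single]
      simp)
  exact LinearMap.congr_fun this c

theorem tb_rc (n : ℕ) (c : Tu I (n + 1) →₀ k) : tb k n c ∈ rc (tb k) (ta k) n := by
  cases n with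
  | zero => exact ta_tb c
  | succ n => exact tb_tb c

variable (k) in
/-- cone -/
def cn (a : I) (n : ℕ) : (Tu I n →₀ k) →ₗ[k] (Tu I (n + 1) →₀ k) :=
  lmapDomain k k fun τ => Fin.cons a τ

theorem cn_single (a : I) (τ : Tu I n) : cn k a n (single τ 1) = single (Fin.cons a τ) 1 := by
  simp [cn]

theorem tb_cn (a : I) {c : Tu I n →₀ k} (hc : c ∈ rc (tb k) (ta k) n) : tb k n (cn k a n c) = c := by
  cases n with
  | zero =>
    have e : tb k 0 ∘ₗ cn k a 0 = LinearMap.id - (ta k).smulRight (single (fun _ => a) 1) :=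
      lhom_ext' fun τ => LinearMap.ext_ring (by
        simp only [LinearMap.comp_apply, lsingle_apply, cn_single, tb_single, LinearMap.sub_apply,
          LinearMap.id_apply, LinearMap.smulRight_apply, ta_single, one_smul]
        have e0 : tf (Fin.cons a τ : Tu I 1) 0 = τ := by funext j; simp [tf]
        have e1 : tf (Fin.cons a τ : Tu I 1) 1 = fun _ => a := by
          funext j; rw [Fin.fin_one_eq_zero j]; rfl
        simp [e0, e1, sub_eq_add_neg])
    have h0 : ta k c = 0 := hc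
    simpa [h0] using LinearMap.congr_fun e c
  | succ n =>
    have e : tb k (n + 1) ∘ₗ cn k a (n + 1) = LinearMap.id - cn k a n ∘ₗ tb k n :=
      lhom_ext' fun τ => LinearMap.ext_ring (by
        simp only [LinearMap.comp_apply, lsingle_apply, cn_single, LinearMap.sub_apply,
          LinearMap.id_apply]
        have e0 : tf (Fin.cons a τ : Tu I (n + 2)) 0 = τ := by funext j; simp [tf]
        have e1 : ∀ i : Fin (n + 2), tf (Fin.cons a τ : Tu I (n + 2)) i.succ = Fin.cons a (tf τ i) := by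
          intro i; funext j
          refine Fin.cases ?_ (fun j => ?_) j <;> simp [tf]
        rw [tb_single, Fin.sum_univ_succ, e0, tb_single, map_sum, sub_eq_add_neg,
          ← Finset.sum_neg_distrib]
        simp only [e1, map_smul, cn_single, Fin.val_zero, pow_zero, one_smul, Fin.val_succ, pow_succ,
          mul_neg, mul_one, neg_smul])
    have h0 : tb k n c = 0 := hc
    simpa [h0] using LinearMap.congr_fun e c

/-- cliques in the closed star of `a` -/
def St (R : I → I → Prop) (a : I) (n : ℕ) : Set (Tu I n) := {ω | Cq R (insert a (range ω))}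

/-- the union of the closed stars of the vertices of a clique is acyclic -/
theorem ac_st {R : I → I → Prop} (t : Finset I) (ht : t.Nonempty)
    (hq : Cq R t) : Ac (tb k) (ta k) (Un (St R) ∅ t) (Un (St R) ∅ t) := by
  obtain ⟨_, -, h⟩ := ac_un (R := R) (S := fun _ => St R) (d := tb k) (ε := ta k) tb_rc
    (fun _ a n c hc => tb_mem (P := fun s => Cq R (insert a s))
      (fun s t h h' => h'.mono (insert_subset_insert h)) hc)
    (fun _ _ _ _ _ => Subset.rfl) (fun _ s ⟨a, ha⟩ hq => ⟨fun _ => a, fun b hb => hq.mono (by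
      rintro x (rfl | ⟨_, rfl⟩)
      exacts [hb, ha]), ta_single _⟩)
    (fun r => ⟨r, fun s ⟨a, ha⟩ hq n c hc h0 => ⟨cn k a n c, mem_of (fun ω hω => by
      rw [cn_single]
      refine single_mem_supported k 1 fun b hb => ?_
      have h1 := hω a ha
      have h2 := hω b hb
      have e : range (Fin.cons a ω : Tu I (n + 1)) = insert a (range ω) := Fin.range_cons a ω
      change Cq R (insert b (range _))
      rw [e]
      rintro x (rfl | hx) y (rfl | hy)
      · exact h2 _ (Or.inl rfl) _ (Or.inl rfl)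
      · rcases hy with rfl | hy
        exacts [hq _ hb _ ha, h2 _ (Or.inl rfl) _ (Or.inr hy)]
      · rcases hx with rfl | hx
        exacts [hq _ ha _ hb, h2 _ (Or.inr hx) _ (Or.inl rfl)]
      · exact h1 _ hx _ hy) hc, tb_cn a h0⟩⟩) t.card 0
  simpa using h ∅ t ht le_rfl (by simpa using hq)

end Crest.Agent.N255.Nv

end
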