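import Crest.Agent.N255.Nv.Abs
import Crest.Agent.N255.Tp.Sm

/-!
# Row 255, block D (helper58): the pro-nerve theorem
-/

set_option autoImplicit false
open Set Finsupp

noncomputable section

namespace Crest.Agent.N255.Nv

open Crest.Agent.N255.Tp

variable {k : Type} [CommRing k] {I X : Type} [TopologicalSpace X]

/-- simplices of `P` in `U` -/
def sIn (P : Sb X) (U : Set X) (n : ℕ) : Set (Sx n X) := {σ | σ ∈ P.S n ∧ range σ ⊆ U}

/-- simplices of `P` which lie in one of the sets `V a`, `a ∈ t` -/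
def sUn (P : Sb X) (V : I → Set X) (t : Set I) : Sb X :=
  ⟨fun n => {σ | σ ∈ P.S n ∧ ∃ a ∈ t, range σ ⊆ V a}, fun n σ i h =>
    ⟨P.fc_mem n σ i h.1, h.2.imp fun _ ha => ⟨ha.1, (range_fc σ i).trans ha.2⟩⟩⟩

theorem un_sIn (P : Sb X) (V : I → Set X) (t : Set I) :
    Un (fun a => sIn P (V a)) ∅ t = (sUn P V t).S := by
  funext n; ext σ
  exact ⟨fun ⟨_, a, ha, h⟩ => ⟨h.1, a, ha, h.2⟩, fun ⟨h, a, ha, h'⟩ => ⟨by simp, a, ha, h, h'⟩⟩

theorem sUn_mono {P : Sb X} {V V' : I → Set X} {t t' : Set I} (h : ∀ a, V a ⊆ V' a) (ht : t ⊆ t') :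
    (sUn P V t).Le (sUn P V' t') := fun _ _ ⟨h1, a, ha, h2⟩ => ⟨h1, a, ht ha, h2.trans (h a)⟩

variable (k) in
/-- reduced cycles of `P` bound in `Q` -/
def AcS (P Q : Sb X) : Prop := ∀ n, P.ch k n ⊓ rcyc k X n ≤ Q.B k n

theorem rc_eq (n : ℕ) : rc (B := fun n => Sx n X) (fun _ => bd k) (aug k) n = rcyc k X n := by
  cases n <;> rfl

theorem acS_iff {P Q : Sb X} :
    AcS k P Q ↔ Ac (B := fun n => Sx n X) (fun _ => bd k) (aug k) P.S Q.S :=
  ⟨fun h n c hc h0 => h n ⟨hc, by rw [← rc_eq]; exact h0⟩,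
    fun h n c hc => h n c hc.1 (by rw [rc_eq]; exact hc.2)⟩

theorem bd_rcyc (n : ℕ) (c : Ch k (n + 1) X) : bd k c ∈ rcyc k X n := by
  cases n with
  | zero => exact aug_bd c
  | succ n => exact bd_bd c

/-- a pro-acyclic system of sets whose nerve lies in the clique complex of `R` -/
structure Sys (k : Type) [CommRing k] (X : Type) [TopologicalSpace X] (I : Type) where
  R : I → I → Prop
  P : Sb X
  V : ℕ → I → Set X
  anti : ∀ r a, V (r + 1) a ⊆ V r a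
  cq : ∀ a b x, x ∈ V 0 a → x ∈ V 0 b → R a b
  sm : ∀ n r a, ∀ σ ∈ P.S n, ∀ t, σ t ∈ V (r + 1) a → range σ ⊆ V r a
  ne : ∀ r a, ∃ σ ∈ P.S 0, range σ ⊆ V r a
  acy : ∀ m r, ∃ r', ∀ t : Finset I, t.Nonempty → t.card ≤ m → Cq R t →
    AcS k (sUn P (V r') t) (sUn P (V r) t)

/-- clique tuples with entries in `A` -/
def tq (R : I → I → Prop) (A : Set I) (n : ℕ) : Set (Tu I n) := {τ | Cq R (range τ) ∧ range τ ⊆ A}

/-- clique tuples in the closed star of a member of `A` -/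
def ts (R : I → I → Prop) (A : Set I) (n : ℕ) : Set (Tu I n) :=
  {ω | ∃ a ∈ A, Cq R (insert a (range ω))}

theorem ts_mono {R : I → I → Prop} {A A' : Set I} (h : A ⊆ A') (n : ℕ) : ts R A n ⊆ ts R A' n :=
  fun _ ⟨a, ha, h'⟩ => ⟨a, h ha, h'⟩

theorem tb_tq {R : I → I → Prop} {A : Set I} {n : ℕ} {c : Tu I (n + 1) →₀ k}
    (hc : c ∈ supported k k (tq R A (n + 1))) : tb k n c ∈ supported k k (tq R A n) :=
  tb_mem (P := fun s => Cq R s ∧ s ⊆ A) (fun _ _ h h' => ⟨h'.1.mono h, h.trans h'.2⟩) hc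

theorem ac_ts {R : I → I → Prop} {n : ℕ} {τ : Tu I n} (h : Cq R (range τ)) :
    Ac (tb k) (ta k) (ts R (range τ)) (ts R (range τ)) := by
  classical
  have e : ((Finset.univ.image τ : Finset I) : Set I) = range τ := by simp
  have := ac_st (k := k) (R := R) (Finset.univ.image τ) (by simp) (e ▸ h)
  rw [e] at this
  exact this.mono (fun _ _ ⟨a, ha, h⟩ => ⟨by simp, a, ha, h⟩) fun _ _ h => h.2

namespace Sys

variable (S : Sys k X I)

theorem mono {r r' : ℕ} (h : r ≤ r') (a : I) : S.V r' a ⊆ S.V r a := by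
  induction h with
  | refl => exact Subset.rfl
  | step _ ih => exact (S.anti _ a).trans ih

/-- small simplices in the sets `V r a`, `a ∈ t` -/
def C (r : ℕ) (t : Set I) : Sb X := sUn S.P (S.V r) t

theorem C_mono {r r' : ℕ} (h : r ≤ r') {t t' : Set I} (ht : t ⊆ t') : (S.C r' t).Le (S.C r t') :=
  sUn_mono (S.mono h) ht

/-- labels which are good up to the level `r` -/
def Lab (r : ℕ) (l : X → I) : Prop := ∀ q ≤ r, ∀ a x, x ∈ S.V (q + 1) a → x ∈ S.V q (l x)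

theorem exists_lab [Nonempty I] (r : ℕ) : ∃ l, S.Lab r l := by
  classical
  have : ∀ x, ∃ b, ∀ q ≤ r + 1, ∀ a, x ∈ S.V q a → x ∈ S.V q b := fun x => by
    by_cases h : ∃ a, x ∈ S.V 0 a
    · obtain ⟨b, hb⟩ := Nat.findGreatest_spec (P := fun q => ∃ a, x ∈ S.V q a) (Nat.zero_le (r + 1)) h
      exact ⟨b, fun q hq a ha => S.mono (Nat.le_findGreatest hq ⟨a, ha⟩) b hb⟩
    · exact ⟨Classical.arbitrary I, fun q _ a ha => absurd ⟨a, S.mono (Nat.zero_le q) a ha⟩ h⟩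
  choose l hl using this
  exact ⟨l, fun q hq a x hx => hl x q (by omega) a (S.anti q a hx)⟩

variable {S}

theorem Lab.mono {r r' : ℕ} {l : X → I} (h : S.Lab r' l) (hr : r ≤ r') : S.Lab r l :=
  fun q hq => h q (hq.trans hr)

theorem Lab.sub {r q n : ℕ} {l : X → I} (h : S.Lab r l) (hq : q + 1 ≤ r) {t : Set I} {σ : Sx n X}
    (hσ : σ ∈ (S.C (q + 2) t).S n) (i : Fin (n + 1)) : range σ ⊆ S.V q (vl l σ i) := by
  obtain ⟨h1, a, -, h2⟩ := hσ
  exact S.sm n q _ σ h1 _ (h (q + 1) hq a _ (h2 ⟨_, rfl⟩))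

theorem Lab.mem_ts {r n : ℕ} {l : X → I} (h : S.Lab r l) (hr : 1 ≤ r) {t : Set I} {σ : Sx n X}
    (hσ : σ ∈ (S.C 2 t).S n) : vl l σ ∈ ts S.R t n := by
  have h1 := h.sub (q := 0) hr hσ
  obtain ⟨-, a, ha, h2⟩ := hσ
  have h3 : ∀ b ∈ insert a (range (vl l σ)), σ (stdSimplex.vertex 0) ∈ S.V 0 b := by
    rintro b (rfl | ⟨i, rfl⟩)
    · exact S.mono (Nat.zero_le 2) _ (h2 ⟨_, rfl⟩)
    · exact h1 i ⟨_, rfl⟩
  exact ⟨a, ha, fun b hb c hc => S.cq b c _ (h3 b hb) (h3 c hc)⟩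

theorem Lab.cq {r n : ℕ} {l : X → I} (h : S.Lab r l) (hr : 1 ≤ r) {t : Set I} {σ : Sx n X}
    (hσ : σ ∈ (S.C 2 t).S n) : Cq S.R (range (vl l σ)) := by
  obtain ⟨a, -, h⟩ := h.mem_ts hr hσ
  exact h.mono (subset_insert _ _)

variable (S) (lv : ℕ → ℕ) (l : X → I)

/-- from the nerve to the space -/
def j : ∀ n, (Tu I n →₀ k) →ₗ[k] Ch k n X
  | 0 => lmapDomain k k fun τ => (S.ne (lv 0) (τ 0)).choose
  | n + 1 => pick (bd k) (j n ∘ₗ tb k n) fun τ => (S.C (lv (n + 1)) (range τ)).ch k (n + 1)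

/-- homotopy on the space -/
def h : ∀ n, Ch k n X →ₗ[k] Ch k (n + 1) X
  | 0 => pick (bd k) (LinearMap.id - S.j lv 0 ∘ₗ lb k l 0)
      fun σ => (S.C (lv 1) (range (vl l σ))).ch k 1
  | n + 1 => pick (bd k) (LinearMap.id - S.j lv (n + 1) ∘ₗ lb k l (n + 1) - h n ∘ₗ bd k)
      fun σ => (S.C (lv (n + 2)) (range (vl l σ))).ch k (n + 2)

/-- homotopy on the nerve -/
def h' : ∀ n, (Tu I n →₀ k) →ₗ[k] (Tu I (n + 1) →₀ k)
  | 0 => pick (tb k 0) (LinearMap.id - lb k l 0 ∘ₗ S.j lv 0)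
      fun τ => supported k k (ts S.R (range τ) 1)
  | n + 1 => pick (tb k (n + 1)) (LinearMap.id - lb k l (n + 1) ∘ₗ S.j lv (n + 1) - h' n ∘ₗ tb k n)
      fun τ => supported k k (ts S.R (range τ) (n + 2))

variable {S lv l} in
theorem j_spec {n : ℕ} {τ : Tu I (n + 1)} (e : S.j lv n (tb k n (single τ 1)) ∈
    (S.C (lv (n + 1)) (range τ)).B k n) :
    S.j lv (n + 1) (single τ 1) ∈ (S.C (lv (n + 1)) (range τ)).ch k (n + 1) ∧
      bd k (S.j lv (n + 1) (single τ 1)) = S.j lv n (tb k n (single τ 1)) :=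
  pick_spec (d := bd k) (z := S.j lv n ∘ₗ tb k n)
    (N := fun τ => (S.C (lv (n + 1)) (range τ)).ch k (n + 1)) (a := τ) (Sb.mem_B.1 e)

variable {S lv l} in
theorem h0_spec {σ : Sx 0 X} (e : sg k σ - S.j lv 0 (lb k l 0 (sg k σ)) ∈
    (S.C (lv 1) (range (vl l σ))).B k 0) :
    S.h lv l 0 (sg k σ) ∈ (S.C (lv 1) (range (vl l σ))).ch k 1 ∧
      bd k (S.h lv l 0 (sg k σ)) = sg k σ - S.j lv 0 (lb k l 0 (sg k σ)) :=
  pick_spec (d := bd k) (z := LinearMap.id - S.j lv 0 ∘ₗ lb k l 0)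
    (N := fun σ => (S.C (lv 1) (range (vl l σ))).ch k 1) (a := σ) (Sb.mem_B.1 e)

variable {S lv l} in
theorem h_spec {n : ℕ} {σ : Sx (n + 1) X} (e : sg k σ - S.j lv (n + 1) (lb k l (n + 1) (sg k σ)) -
    S.h lv l n (bd k (sg k σ)) ∈ (S.C (lv (n + 2)) (range (vl l σ))).B k (n + 1)) :
    S.h lv l (n + 1) (sg k σ) ∈ (S.C (lv (n + 2)) (range (vl l σ))).ch k (n + 2) ∧
      bd k (S.h lv l (n + 1) (sg k σ)) = sg k σ - S.j lv (n + 1) (lb k l (n + 1) (sg k σ)) -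
        S.h lv l n (bd k (sg k σ)) :=
  pick_spec (d := bd k) (z := LinearMap.id - S.j lv (n + 1) ∘ₗ lb k l (n + 1) - S.h lv l n ∘ₗ bd k)
    (N := fun σ => (S.C (lv (n + 2)) (range (vl l σ))).ch k (n + 2)) (a := σ) (Sb.mem_B.1 e)

variable {S lv l} in
theorem h0'_spec {τ : Tu I 0} (e : ∃ b ∈ supported k k (ts S.R (range τ) 1),
    tb k 0 b = single τ 1 - lb k l 0 (S.j lv 0 (single τ 1))) :
    S.h' lv l 0 (single τ 1) ∈ supported k k (ts S.R (range τ) 1) ∧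
      tb k 0 (S.h' lv l 0 (single τ 1)) = single τ 1 - lb k l 0 (S.j lv 0 (single τ 1)) :=
  pick_spec (d := tb k 0) (z := LinearMap.id - lb k l 0 ∘ₗ S.j lv 0)
    (N := fun τ => supported k k (ts S.R (range τ) 1)) (a := τ) e

variable {S lv l} in
theorem h'_spec {n : ℕ} {τ : Tu I (n + 1)} (e : ∃ b ∈ supported k k (ts S.R (range τ) (n + 2)),
    tb k (n + 1) b = single τ 1 - lb k l (n + 1) (S.j lv (n + 1) (single τ 1)) -
      S.h' lv l n (tb k n (single τ 1))) :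
    S.h' lv l (n + 1) (single τ 1) ∈ supported k k (ts S.R (range τ) (n + 2)) ∧
      tb k (n + 1) (S.h' lv l (n + 1) (single τ 1)) = single τ 1 -
        lb k l (n + 1) (S.j lv (n + 1) (single τ 1)) - S.h' lv l n (tb k n (single τ 1)) :=
  pick_spec (d := tb k (n + 1))
    (z := LinearMap.id - lb k l (n + 1) ∘ₗ S.j lv (n + 1) - S.h' lv l n ∘ₗ tb k n)
    (N := fun τ => supported k k (ts S.R (range τ) (n + 2))) (a := τ) e

/-- admissible levels -/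
structure Lv (N : ℕ) : Prop where
  anti : ∀ n, lv (n + 1) ≤ lv n
  two : ∀ n, 2 ≤ lv n
  ac : ∀ n ≤ N, ∀ m ≤ N + 1, ∀ τ : Tu I m, Cq S.R (range τ) →
    AcS k (S.C (lv n) (range τ)) (S.C (lv (n + 1)) (range τ))

theorem exists_lv (N r : ℕ) : ∃ lv, S.Lv lv N ∧ ∀ n, r ≤ lv n := by
  classical
  choose nx hnx using S.acy (N + 2)
  let f : ℕ → ℕ := fun q => max q (nx q)
  have hf : ∀ i q, q ≤ f^[i] q := fun i q => by
    induction i with
    | zero => exact le_rfl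
    | succ i ih => rw [Function.iterate_succ_apply']; exact ih.trans (le_max_left _ _)
  refine ⟨fun n => f^[N + 1 - n] (max r 2), ⟨fun n => ?_, fun n => (le_max_right _ _).trans (hf _ _),
    fun n hn m hm τ hτ => ?_⟩, fun n => (le_max_left _ _).trans (hf _ _)⟩
  · rcases le_or_gt (N + 1) n with h | h
    · rw [show N + 1 - (n + 1) = 0 by omega]; exact hf _ _
    · rw [show N + 1 - n = N + 1 - (n + 1) + 1 by omega, Function.iterate_succ_apply']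
      exact le_max_left _ _
  · have e : ((Finset.univ.image τ : Finset I) : Set I) = range τ := by simp
    have := hnx (f^[N + 1 - (n + 1)] (max r 2)) (Finset.univ.image τ) (by simp)
      (Finset.card_image_le.trans (by simpa using hm)) (e ▸ hτ)
    rw [e] at this
    rw [show N + 1 - n = N + 1 - (n + 1) + 1 by omega, Function.iterate_succ_apply']
    exact fun q c hc => this q ⟨Sb.ch_mono (S.C_mono (le_max_right _ _) Subset.rfl) hc.1, hc.2⟩

variable {S lv l} {N : ℕ}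

theorem Lv.le (H : S.Lv lv N) {m n : ℕ} (h : m ≤ n) : lv n ≤ lv m := by
  induction h with
  | refl => exact le_rfl
  | step _ ih => exact (H.anti _).trans ih

theorem j_zero (τ : Tu I 0) : S.j lv 0 (single τ 1) = sg k (S.ne (lv 0) (τ 0)).choose := by
  simp [j]

theorem aug_j (c : Tu I 0 →₀ k) : aug k (S.j lv 0 c) = ta k c := by
  have : aug k ∘ₗ S.j lv 0 = ta k := lhom_ext' fun τ => LinearMap.ext_ring (by
    simp only [LinearMap.comp_apply, lsingle_apply, j_zero, aug_sg, ta_single])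
  exact LinearMap.congr_fun this c

theorem Lv.j_aux (H : S.Lv lv N) (n : ℕ) (hn : n ≤ N + 1) :
    (∀ τ : Tu I n, Cq S.R (range τ) → S.j lv n (single τ 1) ∈ (S.C (lv n) (range τ)).ch k n) ∧
      ∀ c ∈ supported k k (tq S.R univ (n + 1)), S.j lv n (tb k n c) ∈ rcyc k X n := by
  induction n with
  | zero =>
    refine ⟨fun τ _ => ?_, fun c _ => show aug k _ = 0 by rw [aug_j, ta_tb]⟩
    rw [j_zero]
    exact Sb.sg_mem ⟨(S.ne _ _).choose_spec.1, τ 0, ⟨0, rfl⟩, (S.ne _ _).choose_spec.2⟩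
  | succ n ih =>
    obtain ⟨h1, h2⟩ := ih (by omega)
    have key : ∀ τ : Tu I (n + 1), Cq S.R (range τ) →
        S.j lv (n + 1) (single τ 1) ∈ (S.C (lv (n + 1)) (range τ)).ch k (n + 1) ∧
          bd k (S.j lv (n + 1) (single τ 1)) = S.j lv n (tb k n (single τ 1)) := fun τ hτ =>
      j_spec (H.ac n (by omega) (n + 1) hn τ hτ n ⟨mem_of (s := tq S.R (range τ) n)
        (fun ω hω => Sb.ch_mono (S.C_mono le_rfl hω.2) (h1 ω hω.1))
        (tb_tq (single_mem_supported k 1 ⟨hτ, Subset.rfl⟩)),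
        h2 _ (single_mem_supported k 1 ⟨hτ, subset_univ _⟩)⟩)
    refine ⟨fun τ hτ => (key τ hτ).1, fun c hc => ?_⟩
    have := eq_of (F := bd k ∘ₗ S.j lv (n + 1)) (F' := S.j lv n ∘ₗ tb k n)
      (fun τ hτ => (key τ hτ.1).2) (tb_tq hc)
    change bd k _ = 0
    simpa [tb_tb] using this

theorem Lv.j_mem (H : S.Lv lv N) {n : ℕ} (hn : n ≤ N + 1) {A : Set I} {c : Tu I n →₀ k}
    (hc : c ∈ supported k k (tq S.R A n)) : S.j lv n c ∈ (S.C (lv n) A).ch k n :=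
  mem_of (fun τ hτ => Sb.ch_mono (S.C_mono le_rfl hτ.2) ((H.j_aux n hn).1 τ hτ.1)) hc

theorem Lv.bd_j (H : S.Lv lv N) {n : ℕ} (hn : n ≤ N) {A : Set I} {c : Tu I (n + 1) →₀ k}
    (hc : c ∈ supported k k (tq S.R A (n + 1))) :
    bd k (S.j lv (n + 1) c) = S.j lv n (tb k n c) :=
  eq_of (F := bd k ∘ₗ S.j lv (n + 1)) (F' := S.j lv n ∘ₗ tb k n) (fun τ hτ =>
    (j_spec (H.ac n hn (n + 1) (by omega) τ hτ.1 n
      ⟨H.j_mem (by omega) (tb_tq (single_mem_supported k 1 ⟨hτ.1, Subset.rfl⟩)),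
      (H.j_aux n (by omega)).2 _ (single_mem_supported k 1 ⟨hτ.1, subset_univ _⟩)⟩)).2) hc

variable (S) in
/-- small simplices at level `r` whose labels lie in `A` -/
def F (l : X → I) (r : ℕ) (A : Set I) : Sb X :=
  ⟨fun n => {σ | σ ∈ (S.C r univ).S n ∧ range (vl l σ) ⊆ A}, fun n σ i h =>
    ⟨(S.C r univ).fc_mem n σ i h.1, by rw [vl_fc]; exact (range_tf _ i).trans h.2⟩⟩

theorem F_mono {r r' : ℕ} (h : r ≤ r') {A A' : Set I} (hA : A ⊆ A') :
    (S.F l r' A).Le (S.F l r A') := fun n _ hσ => ⟨S.C_mono h Subset.rfl n hσ.1, hσ.2.trans hA⟩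

theorem Lab.lb_mem {r q n : ℕ} (hl : S.Lab r l) (hr : 1 ≤ r) (hq : 2 ≤ q) {A : Set I} {c : Ch k n X}
    (hc : c ∈ (S.F l q A).ch k n) : lb k l n c ∈ supported k k (tq S.R A n) :=
  Sb.map_mem _ _ (fun σ hσ => by
    rw [lb_sg]
    exact single_mem_supported k 1 ⟨hl.cq hr (S.C_mono hq Subset.rfl n hσ.1), hσ.2⟩) hc

theorem Lab.lb_ts {r q n : ℕ} (hl : S.Lab r l) (hr : 1 ≤ r) (hq : 2 ≤ q) {A : Set I} {c : Ch k n X}
    (hc : c ∈ (S.C q A).ch k n) : lb k l n c ∈ supported k k (ts S.R A n) :=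
  Sb.map_mem _ _ (fun σ hσ => by
    rw [lb_sg]
    exact single_mem_supported k 1 (hl.mem_ts hr (S.C_mono hq Subset.rfl n hσ))) hc

theorem Lab.F_le {r q : ℕ} (hl : S.Lab r l) (hq : q + 1 ≤ r) (A : Set I) :
    (S.F l (q + 2) A).Le (S.C q A) := fun _ _ hσ =>
  ⟨hσ.1.1, _, hσ.2 ⟨0, rfl⟩, hl.sub hq hσ.1 0⟩

section h
variable (H : S.Lv lv N) (hl : S.Lab (lv 0 + 1) l)
include H hl

theorem Lv.h_zero {σ : Sx 0 X} (hσ : σ ∈ (S.C (lv 0 + 2) univ).S 0) :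
    S.h lv l 0 (sg k σ) ∈ (S.C (lv 1) (range (vl l σ))).ch k 1 ∧
      bd k (S.h lv l 0 (sg k σ)) = sg k σ - S.j lv 0 (lb k l 0 (sg k σ)) := by
  have h0 : σ ∈ (S.F l (lv 0 + 2) (range (vl l σ))).S 0 := ⟨hσ, Subset.rfl⟩
  refine h0_spec (H.ac 0 (by omega) 0 (by omega) _
    (hl.cq (by omega) (S.C_mono (by omega) Subset.rfl _ hσ)) 0 ⟨Submodule.sub_mem _
      (Sb.sg_mem (hl.F_le le_rfl _ _ h0))
      (H.j_mem (by omega) (hl.lb_mem (by omega) (by omega) (Sb.sg_mem h0))), ?_⟩)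
  change aug k (sg k σ - S.j lv 0 (lb k l 0 (sg k σ))) = 0
  rw [map_sub, aug_j, ta_lb, sub_self]

theorem Lv.h_aux (n : ℕ) (hn : n ≤ N) :
    (∀ A, ∀ c ∈ (S.F l (lv 0 + 2) A).ch k n, S.h lv l n c ∈ (S.C (lv (n + 1)) A).ch k (n + 1)) ∧
      (∀ c ∈ (S.F l (lv 0 + 2) univ).ch k (n + 1),
        bd k (S.h lv l n (bd k c)) = bd k c - S.j lv n (lb k l n (bd k c))) ∧
      ∀ m, n = m + 1 → ∀ c ∈ (S.F l (lv 0 + 2) univ).ch k (m + 1), bd k (S.h lv l (m + 1) c) =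
        c - S.j lv (m + 1) (lb k l (m + 1) c) - S.h lv l m (bd k c) := by
  induction n with
  | zero =>
    refine ⟨fun A c hc => Sb.map_mem (P := S.F l (lv 0 + 2) A) _ _ (fun σ hσ =>
      Sb.ch_mono (S.C_mono le_rfl hσ.2) (H.h_zero hl hσ.1).1) hc, fun c hc => ?_, by omega⟩
    exact eq_of (F := bd k ∘ₗ S.h lv l 0) (F' := LinearMap.id - S.j lv 0 ∘ₗ lb k l 0)
      (s := (S.F l (lv 0 + 2) univ).S 0) (fun σ hσ => (H.h_zero hl hσ.1).2) (Sb.bd_mem hc)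
  | succ n ih =>
    obtain ⟨h1, h2, -⟩ := ih (by omega)
    have key : ∀ σ ∈ (S.F l (lv 0 + 2) univ).S (n + 1),
        S.h lv l (n + 1) (sg k σ) ∈ (S.C (lv (n + 2)) (range (vl l σ))).ch k (n + 2) ∧
          bd k (S.h lv l (n + 1) (sg k σ)) = sg k σ - S.j lv (n + 1) (lb k l (n + 1) (sg k σ)) -
            S.h lv l n (bd k (sg k σ)) := fun σ hσ => by
      have h0 : σ ∈ (S.F l (lv 0 + 2) (range (vl l σ))).S (n + 1) := ⟨hσ.1, Subset.rfl⟩
      have h3 := hl.lb_mem (k := k) (by omega) (by omega) (Sb.sg_mem h0)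
      refine h_spec (H.ac (n + 1) hn (n + 1) (by omega) _
        (hl.cq (by omega) (S.C_mono (by omega) Subset.rfl _ hσ.1)) (n + 1) ⟨Submodule.sub_mem _
          (Submodule.sub_mem _ (Sb.ch_mono (S.C_mono (H.le (Nat.zero_le _)) Subset.rfl)
            (Sb.sg_mem (hl.F_le le_rfl _ _ h0))) (H.j_mem (by omega) h3))
          (h1 _ _ (Sb.bd_mem (Sb.sg_mem h0))), ?_⟩)
      change bd k (sg k σ - S.j lv (n + 1) (lb k l (n + 1) (sg k σ)) -
        S.h lv l n (bd k (sg k σ))) = 0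
      rw [map_sub, map_sub, H.bd_j (by omega) h3, tb_lb, h2 _ (Sb.sg_mem hσ), sub_self]
    have e : ∀ c ∈ (S.F l (lv 0 + 2) univ).ch k (n + 1), bd k (S.h lv l (n + 1) c) =
        c - S.j lv (n + 1) (lb k l (n + 1) c) - S.h lv l n (bd k c) := fun c hc =>
      eq_of (F := bd k ∘ₗ S.h lv l (n + 1))
        (F' := LinearMap.id - S.j lv (n + 1) ∘ₗ lb k l (n + 1) - S.h lv l n ∘ₗ bd k)
        (s := (S.F l (lv 0 + 2) univ).S (n + 1)) (fun σ hσ => (key σ hσ).2) hc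
    refine ⟨fun A c hc => Sb.map_mem (P := S.F l (lv 0 + 2) A) _ _ (fun σ hσ => Sb.ch_mono
      (S.C_mono le_rfl hσ.2) (key σ ⟨hσ.1, subset_univ _⟩).1) hc, fun c hc => ?_, fun m hm => ?_⟩
    · rw [e _ (Sb.bd_mem hc), bd_bd, map_zero, sub_zero]
    · obtain rfl : n = m := by omega
      exact e

theorem Lv.h_mem {n : ℕ} (hn : n ≤ N) {A : Set I} {c : Ch k n X}
    (hc : c ∈ (S.F l (lv 0 + 2) A).ch k n) : S.h lv l n c ∈ (S.C (lv (n + 1)) A).ch k (n + 1) :=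
  (H.h_aux hl n hn).1 A c hc

theorem Lv.bd_h_zero {A : Set I} {c : Ch k 0 X} (hc : c ∈ (S.F l (lv 0 + 2) A).ch k 0) :
    bd k (S.h lv l 0 c) = c - S.j lv 0 (lb k l 0 c) :=
  eq_of (F := bd k ∘ₗ S.h lv l 0) (F' := LinearMap.id - S.j lv 0 ∘ₗ lb k l 0)
    (s := (S.F l (lv 0 + 2) A).S 0) (fun _ hσ => (H.h_zero hl hσ.1).2) hc

theorem Lv.bd_h {n : ℕ} (hn : n + 1 ≤ N) {A : Set I} {c : Ch k (n + 1) X}
    (hc : c ∈ (S.F l (lv 0 + 2) A).ch k (n + 1)) : bd k (S.h lv l (n + 1) c) =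
      c - S.j lv (n + 1) (lb k l (n + 1) c) - S.h lv l n (bd k c) :=
  (H.h_aux hl (n + 1) hn).2.2 n rfl c (Sb.ch_mono (F_mono le_rfl (subset_univ A)) hc)

omit H hl in
theorem tq_le_ts {R : I → I → Prop} {n : ℕ} {A : Set I} : tq R A n ⊆ ts R A n := fun τ hτ =>
  ⟨τ 0, hτ.2 ⟨0, rfl⟩, by rw [insert_eq_of_mem (mem_range_self 0)]; exact hτ.1⟩

theorem Lv.h'_zero {τ : Tu I 0} (hτ : Cq S.R (range τ)) :
    S.h' lv l 0 (single τ 1) ∈ supported k k (ts S.R (range τ) 1) ∧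
      tb k 0 (S.h' lv l 0 (single τ 1)) = single τ 1 - lb k l 0 (S.j lv 0 (single τ 1)) := by
  have h0 : single τ (1 : k) ∈ supported k k (tq S.R (range τ) 0) :=
    single_mem_supported k 1 ⟨hτ, Subset.rfl⟩
  refine h0'_spec (ac_ts hτ 0 _ (Submodule.sub_mem _ (supported_mono tq_le_ts h0)
    (hl.lb_ts (by omega) (H.two 0) (H.j_mem (by omega) h0))) ?_)
  change ta k (single τ 1 - lb k l 0 (S.j lv 0 (single τ 1))) = 0
  rw [map_sub, ta_lb, aug_j, sub_self]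

theorem Lv.h'_aux (n : ℕ) (hn : n ≤ N + 1) :
    (∀ A, ∀ c ∈ supported k k (tq S.R A n), S.h' lv l n c ∈ supported k k (ts S.R A (n + 1))) ∧
      (∀ c ∈ supported k k (tq S.R univ (n + 1)),
        tb k n (S.h' lv l n (tb k n c)) = tb k n c - lb k l n (S.j lv n (tb k n c))) ∧
      ∀ m, n = m + 1 → ∀ c ∈ supported k k (tq S.R univ (m + 1)),
        tb k (m + 1) (S.h' lv l (m + 1) c) =
          c - lb k l (m + 1) (S.j lv (m + 1) c) - S.h' lv l m (tb k m c) := by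
  induction n with
  | zero =>
    refine ⟨fun A c hc => mem_of (s := tq S.R A 0) (fun τ hτ =>
      supported_mono (ts_mono hτ.2 _) (H.h'_zero hl hτ.1).1) hc, fun c hc => ?_, by omega⟩
    exact eq_of (F := tb k 0 ∘ₗ S.h' lv l 0) (F' := LinearMap.id - lb k l 0 ∘ₗ S.j lv 0)
      (fun τ hτ => (H.h'_zero hl hτ.1).2) (tb_tq hc)
  | succ n ih =>
    obtain ⟨h1, h2, -⟩ := ih (by omega)
    have key : ∀ τ ∈ tq S.R univ (n + 1),
        S.h' lv l (n + 1) (single τ 1) ∈ supported k k (ts S.R (range τ) (n + 2)) ∧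
          tb k (n + 1) (S.h' lv l (n + 1) (single τ 1)) = single τ 1 -
            lb k l (n + 1) (S.j lv (n + 1) (single τ 1)) - S.h' lv l n (tb k n (single τ 1)) :=
      fun τ hτ => by
      have h0 : single τ (1 : k) ∈ supported k k (tq S.R (range τ) (n + 1)) :=
        single_mem_supported k 1 ⟨hτ.1, Subset.rfl⟩
      refine h'_spec (ac_ts hτ.1 (n + 1) _ (Submodule.sub_mem _ (Submodule.sub_mem _
        (supported_mono tq_le_ts h0) (hl.lb_ts (by omega) (H.two _) (H.j_mem hn h0)))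
        (h1 _ _ (tb_tq h0))) ?_)
      change tb k n (single τ 1 - lb k l (n + 1) (S.j lv (n + 1) (single τ 1)) -
        S.h' lv l n (tb k n (single τ 1))) = 0
      rw [map_sub, map_sub, tb_lb, H.bd_j (by omega) h0, h2 _ (single_mem_supported k 1 hτ), sub_self]
    have e : ∀ c ∈ supported k k (tq S.R univ (n + 1)), tb k (n + 1) (S.h' lv l (n + 1) c) =
        c - lb k l (n + 1) (S.j lv (n + 1) c) - S.h' lv l n (tb k n c) := fun c hc =>
      eq_of (F := tb k (n + 1) ∘ₗ S.h' lv l (n + 1))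
        (F' := LinearMap.id - lb k l (n + 1) ∘ₗ S.j lv (n + 1) - S.h' lv l n ∘ₗ tb k n)
        (fun τ hτ => (key τ hτ).2) hc
    refine ⟨fun A c hc => mem_of (s := tq S.R A (n + 1)) (fun τ hτ => supported_mono (ts_mono hτ.2 _)
      (key τ ⟨hτ.1, subset_univ _⟩).1) hc, fun c hc => ?_, fun m hm => ?_⟩
    · rw [e _ (tb_tq hc), tb_tb, map_zero, sub_zero]
    · obtain rfl : n = m := by omega
      exact e

theorem Lv.h'_mem {n : ℕ} (hn : n ≤ N + 1) {A : Set I} {c : Tu I n →₀ k}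
    (hc : c ∈ supported k k (tq S.R A n)) : S.h' lv l n c ∈ supported k k (ts S.R A (n + 1)) :=
  (H.h'_aux hl n hn).1 A c hc

theorem Lv.tb_h'_zero {A : Set I} {c : Tu I 0 →₀ k} (hc : c ∈ supported k k (tq S.R A 0)) :
    tb k 0 (S.h' lv l 0 c) = c - lb k l 0 (S.j lv 0 c) :=
  eq_of (F := tb k 0 ∘ₗ S.h' lv l 0) (F' := LinearMap.id - lb k l 0 ∘ₗ S.j lv 0)
    (fun _ hτ => (H.h'_zero hl hτ.1).2) hc

theorem Lv.tb_h' {n : ℕ} (hn : n ≤ N) {A : Set I} {c : Tu I (n + 1) →₀ k}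
    (hc : c ∈ supported k k (tq S.R A (n + 1))) : tb k (n + 1) (S.h' lv l (n + 1) c) =
      c - lb k l (n + 1) (S.j lv (n + 1) c) - S.h' lv l n (tb k n c) :=
  (H.h'_aux hl (n + 1) (by omega)).2.2 n rfl c
    (supported_mono (show tq S.R A (n + 1) ⊆ tq S.R univ (n + 1) from
      fun _ hτ => ⟨hτ.1, subset_univ _⟩) hc)

end h

end Sys

end Crest.Agent.N255.Nv

end
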